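import Vale.Agent.P218UF.Match

/-! The flatness lemma at unit scale, for a field with small total variation. -/

open MeasureTheory Set Filter Topology Metric
open scoped ENNReal NNReal RealInnerProductSpace

namespace Vale.Agent.P218UF

/-- the tilt estimate -/
theorem tilt {L α : ℝ} (hL : 1 ≤ L) (hα : 0 < α) (hα1 : α ≤ 1) {δ : ℝ} (hδ : 0 < δ) :
    ∃ ε > 0, ∀ S : Dat,
      ∫⁻ x in ball 0 (8 * (58 * L / α)), ‖fderiv ℝ S.N x‖ₑ ∂ar S.w ≤ ENNReal.ofReal ε →
      ar S.w (ball 0 L ∩ {x | S.N x ≠ gradient S.w x}) ≤ ENNReal.ofReal ε →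
      ∃ F : Frame, ar S.w (ball 0 L \ S.near F α) ≤ ENNReal.ofReal δ := by
  classical
  obtain ⟨t, ht, hfin, hcov⟩ := finite_cover_balls_of_compact (isCompact_sphere (0 : E3) 1)
    (e := α / 2 / 16) (by positivity)
  set R := 58 * L / α with hR
  set C : ℝ := 1 + hfin.toFinset.card * (2 * (2 * L * (3 * (α / 2 / 16)⁻¹))) with hC
  have hC0 : 0 < C := by positivity
  refine ⟨min (α / 96) (δ / C), by positivity, fun S h1 h2 => ?_⟩
  set ε := min (α / 96) (δ / C) with hε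
  have hε0 : 0 < ε := by positivity
  have h3 : 3 * ∫⁻ x in ball 0 (8 * R), ‖fderiv ℝ S.N x‖ₑ ∂ar S.w ≤ ENNReal.ofReal (3 * ε) := by
    rw [ENNReal.ofReal_mul (by norm_num), ENNReal.ofReal_ofNat]; gcongr
  set H : E3 → Prop := fun q =>
    S.lt L R (α / 2 / 16) < ar S.w (ball 0 L ∩ {x | om (S.N x) q ≤ α / 2 / 16}) with hH
  have hu : ∀ q ∈ t, ‖q‖ = 1 := fun q hq => by simpa using ht hq
  obtain ⟨n, hn, hnH⟩ : ∃ n : E3, ‖n‖ = 1 ∧ ∀ q ∈ t, H q → om q n < α / 2 := by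
    by_cases h : ∃ p ∈ t, H p
    · obtain ⟨p, hp, hp'⟩ := h
      refine ⟨p, hu p hp, fun q hq hq' => S.cross (R := R) hL ?_ (by positivity) (by linarith) ?_
        (hu q hq) (hu p hp) (h3.trans (ENNReal.ofReal_le_ofReal ?_)) hq' hp'⟩
      · rw [hR, le_div_iff₀ hα]; nlinarith
      · rw [hR]; field_simp; norm_num
      · linarith [min_le_left (α / 96) (δ / C)]
    · exact ⟨EuclideanSpace.single 0 1, by simp, fun q hq hq' => absurd ⟨q, hq, hq'⟩ h⟩
  obtain ⟨F, rfl⟩ := exists_frame_n hn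
  refine ⟨F, ?_⟩
  have hsub : ar S.w (ball 0 L \ S.near F α) ≤ ar S.w ((ball 0 L ∩ {x | S.N x ≠ gradient S.w x}) ∪
      ⋃ q ∈ hfin.toFinset.filter fun q => ¬H q, ball 0 L ∩ {x | om (S.N x) q ≤ α / 2 / 16}) := by
    refine measure_mono_ae ?_
    filter_upwards [ae_restrict_mem S.mz] with x hx hX
    by_cases hN : S.N x = gradient S.w x
    · have : S.N x ∈ sphere (0 : E3) 1 := by simpa [hN] using S.h1 x hx
      obtain ⟨q, hq, hd⟩ := mem_iUnion₂.1 (hcov this)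
      rw [mem_ball, dist_eq_norm] at hd
      refine Or.inr (mem_iUnion₂.2 ⟨q, Finset.mem_filter.2 ⟨hfin.mem_toFinset.2 hq, fun h => hX.2 ?_⟩,
        hX.1, (min_le_left _ _).trans hd.le⟩)
      have := hnH q hq h
      exact show om _ _ ≤ α by linarith [om_le q (S.N x) F.n]
    · exact Or.inl ⟨hX.1, hN⟩
  have hlt : S.lt L R (α / 2 / 16) ≤
      ENNReal.ofReal (2 * (2 * L * (3 * ε * (α / 2 / 16)⁻¹))) := by
    rw [ENNReal.ofReal_mul (by norm_num), ENNReal.ofReal_mul (by positivity),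
      ENNReal.ofReal_mul (by positivity : 0 ≤ 3 * ε), ENNReal.ofReal_ofNat, Dat.lt]
    gcongr
  refine hsub.trans ((measure_union_le _ _).trans ((add_le_add h2
    ((measure_biUnion_finset_le _ _).trans (Finset.sum_le_card_nsmul _ _ _ fun q hq =>
      (not_lt.1 (Finset.mem_filter.1 hq).2).trans hlt))).trans ?_))
  rw [nsmul_eq_mul, ← ENNReal.ofReal_natCast, ← ENNReal.ofReal_mul (by positivity),
    ← ENNReal.ofReal_add hε0.le (by positivity)]
  refine ENNReal.ofReal_le_ofReal ?_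
  have c1 : ((hfin.toFinset.filter fun q => ¬H q).card : ℝ) ≤ hfin.toFinset.card := by
    exact_mod_cast Finset.card_filter_le _ _
  have c2 : ε * C ≤ δ := (le_div_iff₀ hC0).1 (min_le_right _ _)
  calc _ ≤ ε + hfin.toFinset.card * (2 * (2 * L * (3 * ε * (α / 2 / 16)⁻¹))) := by gcongr
    _ = ε * C := by rw [hC]; ring
    _ ≤ δ := c2

/-- **Flatness lemma**, abstract form -/
theorem core {M L δ : ℝ} (hM : 0 ≤ M) (hL : 1 ≤ L) (hδ : 0 < δ) :
    ∃ L' ε : ℝ, 0 < L' ∧ 0 < ε ∧ ∀ S : Dat, ar S.w (ball 0 (L + 4)) ≤ ENNReal.ofReal M →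
      ∫⁻ x in ball 0 L', ‖fderiv ℝ S.N x‖ₑ ∂ar S.w ≤ ENNReal.ofReal ε →
      ar S.w (ball 0 L ∩ {x | S.N x ≠ gradient S.w x}) ≤ ENNReal.ofReal ε →
      ∃ (F : Frame) (T : Finset ℝ), (T.card : ℝ) ≤ M + 1 ∧
        ar S.w (ball 0 L \ S.near F δ) ≤ ENNReal.ofReal δ ∧ ∀ Φ, Tst L Φ →
        ∫⁻ x, Φ x ∂ar S.w ≤ (∑ t ∈ T, ∫⁻ ξ, Φ (F.pt ξ t)) + ENNReal.ofReal δ ∧
        (∑ t ∈ T, ∫⁻ ξ, Φ (F.pt ξ t)) ≤ ∫⁻ x, Φ x ∂ar S.w + ENNReal.ofReal δ := by
  set C : ℝ := 160 * L ^ 3 * (M + 1) + M + 1 with hC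
  have hL0 : 0 < L := by linarith
  have hC1 : 1 ≤ C := by
    have : 0 ≤ 160 * L ^ 3 * (M + 1) := by positivity
    linarith
  set α := min (1 / (40 * L)) (δ / 4 / C) with hα
  have hα0 : 0 < α := by positivity
  have hαL : 40 * α * L ≤ 1 := by
    have := (le_div_iff₀ (by positivity)).1 (min_le_left (1 / (40 * L)) (δ / 4 / C))
    linarith
  have hαC : α * C ≤ δ / 4 := (le_div_iff₀ (by positivity)).1 (min_le_right _ _)
  have hα1 : α ≤ 1 := by nlinarith
  have hαδ : α ≤ δ := by nlinarith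
  obtain ⟨ε₁, hε₁, ht⟩ := tilt hL hα0 hα1 (δ := δ / 4) (by positivity)
  set R := 58 * L / α with hR
  have hR3 : 3 * L ≤ R := by rw [hR, le_div_iff₀ hα0]; nlinarith
  set ε := min ε₁ (min (α / (M + 1) / 3) (δ / 4 * α / (6 * L))) with hε
  have hε0 : 0 < ε := by positivity
  refine ⟨8 * R, ε, by positivity, hε0, fun S h0 h1 h2 => ?_⟩
  have e1 : ENNReal.ofReal ε ≤ ENNReal.ofReal ε₁ := ENNReal.ofReal_le_ofReal (min_le_left _ _)
  obtain ⟨F, hF⟩ := ht S (h1.trans e1) (h2.trans e1)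
  have h3 : ∀ G : Frame, ∫⁻ σ, S.row G R σ ≤ ENNReal.ofReal (3 * ε) := fun G => by
    refine (S.int_row G R).2.trans ?_
    rw [ENNReal.ofReal_mul (by norm_num), ENNReal.ofReal_ofNat]; gcongr
  have e2 : ε ≤ α / (M + 1) / 3 := (min_le_right _ _).trans (min_le_left _ _)
  have e3 : ε * (6 * L) ≤ δ / 4 * α :=
    (le_div_iff₀ (by positivity)).1 ((min_le_right _ _).trans (min_le_right _ _))
  obtain ⟨ξ₀, T, B, hT⟩ := S.exists_base F hL hR3 hα0 hαL hM h0
    ((h3 _).trans (ENNReal.ofReal_le_ofReal (by linarith)))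
  have herr : S.err F L R α T.card ≤
      ENNReal.ofReal (160 * L ^ 3 * (M + 1) * α + δ / 4) := by
    have a1 : S.err F L R α T.card ≤ ENNReal.ofReal (2 * L * ((M + 1) * (40 * α * L) * (2 * L)
        + 3 * ε * α⁻¹)) := by
      rw [ENNReal.ofReal_mul (by positivity), ENNReal.ofReal_add (by positivity) (by positivity),
        ENNReal.ofReal_mul (by positivity : 0 ≤ 3 * ε),
        ENNReal.ofReal_mul (by positivity : 0 ≤ (M + 1) * (40 * α * L)),
        ENNReal.ofReal_mul (by positivity : 0 ≤ M + 1), Dat.err]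
      gcongr
      · rw [← ENNReal.ofReal_natCast]; exact ENNReal.ofReal_le_ofReal hT
      · exact h3 F
    refine a1.trans (ENNReal.ofReal_le_ofReal ?_)
    have a2 : 2 * L * (3 * ε * α⁻¹) ≤ δ / 4 := by
      rw [← mul_assoc, ← div_eq_mul_inv, div_le_iff₀ hα0]; linarith
    nlinarith
  have hball : ar S.w (ball 0 L) ≤ ENNReal.ofReal M :=
    (measure_mono (ball_subset_ball (by linarith))).trans h0
  have hall : S.err F L R α T.card + (ENNReal.ofReal α * ar S.w (ball 0 L) +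
      ar S.w (ball 0 L \ S.near F α)) ≤ ENNReal.ofReal δ := by
    refine (add_le_add herr (add_le_add (mul_le_mul_right hball _) hF)).trans ?_
    rw [← ENNReal.ofReal_mul hα0.le, ← ENNReal.ofReal_add (by positivity) (by positivity),
      ← ENNReal.ofReal_add (by positivity) (by positivity)]
    refine ENNReal.ofReal_le_ofReal ?_
    nlinarith
  refine ⟨F, T, hT, (measure_mono (sdiff_subset_sdiff_right fun x hx => ?_)).trans
    (hF.trans (ENNReal.ofReal_le_ofReal (by linarith))), fun Φ hΦ =>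
      ⟨(B.int_up hΦ).trans (add_le_add_right hall _),
        (B.int_down hΦ).trans (add_le_add_right (le_self_add.trans hall) _)⟩⟩
  exact le_trans hx hαδ

end Vale.Agent.P218UF
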