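import Vale.Agent.P218UF.Curve
import Mathlib.MeasureTheory.Integral.Average

/-! Two sheets with different normals cross. -/

open MeasureTheory Set Filter Topology Metric
open scoped ENNReal NNReal RealInnerProductSpace

namespace Vale.Agent.P218UF

lemma exists_frame {v : Fin 3 → E3} {s : Set (Fin 3)} (hv : Orthonormal ℝ (s.domRestrict v)) :
    ∃ F : Frame, (0 ∈ s → F.e = v 0) ∧ (2 ∈ s → F.n = v 2) := by
  obtain ⟨b, hb⟩ := hv.exists_orthonormalBasis_extension_of_card_eq (by simp)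
  refine ⟨⟨b 0, b 1, b 2, b.orthonormal.1 _, b.orthonormal.1 _, b.orthonormal.1 _,
    b.orthonormal.2 (by decide), b.orthonormal.2 (by decide), b.orthonormal.2 (by decide),
    fun x => ?_⟩, hb 0, hb 2⟩
  have := b.sum_repr' x
  rw [Fin.sum_univ_three] at this
  simp only [real_inner_comm _ x]
  exact this.symm

lemma exists_frame_n {n : E3} (hn : ‖n‖ = 1) : ∃ F : Frame, F.n = n := by
  obtain ⟨F, -, h⟩ := exists_frame (v := fun _ => n) (s := {2})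
    ⟨fun _ => hn, fun i j h => absurd (Subsingleton.elim i j) h⟩
  exact ⟨F, h rfl⟩

lemma exists_frame_en {e n : E3} (he : ‖e‖ = 1) (hn : ‖n‖ = 1) (h : ⟪e, n⟫ = 0) :
    ∃ F : Frame, F.e = e ∧ F.n = n := by
  obtain ⟨F, h1, h2⟩ := exists_frame (v := ![e, e, n]) (s := {0, 2}) ⟨by
    rintro ⟨i, rfl | rfl⟩
    · exact he
    · exact hn, by
    rintro ⟨i, rfl | rfl⟩ ⟨j, rfl | rfl⟩ hij
    · exact absurd rfl hij
    · exact h
    · exact (real_inner_comm _ _).trans h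
    · exact absurd rfl hij⟩
  exact ⟨F, h1 (by simp), h2 (by simp)⟩

/-- the distance between `v` and `±p` -/
noncomputable def om (v p : E3) : ℝ := min ‖v - p‖ ‖v + p‖

lemma om_le (v v' p : E3) : om v' p ≤ om v p + ‖v' - v‖ := by
  rw [om, om, ← min_add_add_right]
  refine min_le_min ?_ ?_
  · calc ‖v' - p‖ = ‖v - p + (v' - v)‖ := by congr 1; abel
      _ ≤ _ := norm_add_le _ _
  · calc ‖v' + p‖ = ‖v + p + (v' - v)‖ := by congr 1; abel
      _ ≤ _ := norm_add_le _ _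

lemma om_neg (v p : E3) : om v (-p) = om v p := by
  rw [om, om, sub_neg_eq_add, ← sub_eq_add_neg, min_comm]

lemma om_nonneg (v p : E3) : 0 ≤ om v p := le_min (norm_nonneg _) (norm_nonneg _)

lemma continuous_om (p : E3) : Continuous fun v => om v p := by unfold om; fun_prop

lemma om_inner {v p : E3} {θ : ℝ} (h : om v p ≤ θ) : ∃ σ : ℝ, (σ = 1 ∨ σ = -1) ∧
    ∀ z : E3, ‖z‖ = 1 → |σ * ⟪v, z⟫ - ⟪p, z⟫| ≤ θ := by
  rcases min_le_iff.1 h with h | h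
  · refine ⟨1, Or.inl rfl, fun z hz => ?_⟩
    rw [one_mul, ← inner_sub_left]; exact (abs_inner_le hz).trans h
  · refine ⟨-1, Or.inr rfl, fun z hz => ?_⟩
    rw [neg_one_mul, ← neg_add', abs_neg, ← inner_add_left]; exact (abs_inner_le hz).trans h

lemma om_abs {v p z : E3} {θ : ℝ} (h : om v p ≤ θ) (hz : ‖z‖ = 1) :
    ⟪p, z⟫ - θ ≤ |⟪v, z⟫| ∧ |⟪v, z⟫| ≤ |⟪p, z⟫| + θ := by
  obtain ⟨σ, hσ, h⟩ := om_inner h
  have a := abs_le.1 (h z hz)
  have b := abs_sub_abs_le_abs_sub (σ * ⟪v, z⟫) ⟪p, z⟫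
  have c : |σ * ⟪v, z⟫| = |⟪v, z⟫| := by rcases hσ with rfl | rfl <;> simp
  have d := le_abs_self (σ * ⟪v, z⟫)
  exact ⟨by linarith [a.1], by linarith [h z hz]⟩

lemma exists_le_of_vol {α : Type*} [MeasureSpace α] {s : Set α} (hs : volume s = 1)
    {f : α → ℝ≥0∞} (hf : Measurable f) : ∃ x ∈ s, f x ≤ ∫⁻ x, f x := by
  obtain ⟨x, hx, h⟩ := exists_le_setLAverage (μ := volume) (s := s) (by simp [hs]) (by simp [hs])
    hf.aemeasurable
  rw [setLAverage_eq, hs, div_one] at h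
  exact ⟨x, hx, h.trans (setLIntegral_le_lintegral _ _)⟩

lemma int_strip {L : ℝ} {g : ℝ → ℝ≥0∞} (hg : Measurable g) :
    ∫⁻ ξ : ℝ × ℝ, (Icc (-L) L).indicator 1 ξ.1 * g ξ.2 = ENNReal.ofReal (2 * L) * ∫⁻ σ, g σ := by
  have := lintegral_prod_mul (μ := volume) (ν := volume) (f := (Icc (-L) L).indicator 1)
    (measurable_one.indicator measurableSet_Icc).aemeasurable hg.aemeasurable
  rw [lintegral_indicator_one measurableSet_Icc, Real.volume_Icc] at this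
  rw [show 2 * L = L - -L by ring, ← this]
  rfl

namespace Dat

variable (S : Dat) (F : Frame)

/-- the indicator of the points whose curve has a large variation -/
noncomputable def bad (R η : ℝ) (y : E3) : ℝ≥0∞ :=
  {y | ENNReal.ofReal η < S.J F R y}.indicator 1 y

lemma sum_bad (R : ℝ) {η : ℝ} (hη : 0 < η) (ξ : ℝ × ℝ) :
    ∑' t, S.bad F R η (F.pt ξ t) ≤ S.row F R ξ.2 * ENNReal.ofReal η⁻¹ := by
  refine le_trans ?_ (mul_le_mul_left (S.sum_J F R ξ) _)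
  rw [← ENNReal.tsum_mul_right]
  refine ENNReal.tsum_le_tsum fun t => indicator_apply_le' (fun h => ?_) fun _ => zero_le
  refine le_trans ?_ (mul_le_mul_left (le_of_lt h) _)
  rw [← ENNReal.ofReal_mul hη.le, mul_inv_cancel₀ hη.ne']; simp

lemma mass_le {R η L : ℝ} (hη : 0 < η) {E : Set E3} (hE : MeasurableSet E) (hL : E ⊆ ball 0 L)
    (h : ∀ y ∈ E, S.w y = 0 → ENNReal.ofReal η < S.J F R y ∧ 1 / 2 ≤ |S.u F y|) :
    ar S.w E ≤ 2 * (ENNReal.ofReal (2 * L) * ((∫⁻ σ, S.row F R σ) * ENNReal.ofReal η⁻¹)) := by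
  obtain ⟨-, he⟩ := lintegral_fs F S.hw1 S.h1 (measurable_one.indicator hE) fun x hx h' h0 => by
    have := (h x (mem_of_indicator_ne_zero h') hx).2
    rw [u, h0] at this; norm_num at this
  have h1 : ar S.w E ≤ 2 * ∫⁻ s, fs F S.w (E.indicator 1) s := by
    rw [he, ← lintegral_indicator_one hE, ← lintegral_const_mul' _ _ (by norm_num)]
    refine setLIntegral_mono' S.mz fun x hx => indicator_apply_le' (fun hxE => ?_) fun _ => zero_le
    rw [indicator_of_mem hxE, Pi.one_apply, one_mul]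
    refine le_trans (le_of_eq ?_) (mul_le_mul_right (ENNReal.ofReal_le_ofReal (h x hxE hx).2) _)
    rw [one_div, ENNReal.ofReal_inv_of_pos two_pos, ENNReal.ofReal_ofNat,
      ENNReal.mul_inv_cancel (by norm_num) (by norm_num)]
  refine h1.trans (mul_le_mul_right ?_ _)
  rw [← lintegral_mul_const _ (S.int_row F R).1, ← int_strip ((S.int_row F R).1.mul_const _)]
  refine lintegral_mono fun ξ => ?_
  by_cases hξ : ξ.1 ∈ Icc (-L) L
  · rw [indicator_of_mem hξ, Pi.one_apply, one_mul]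
    refine le_trans (ENNReal.tsum_le_tsum fun t => ?_) (S.sum_bad F R hη ξ)
    refine indicator_apply_le' (fun hz => indicator_apply_le' (fun hx => ?_) fun _ => zero_le)
      fun _ => zero_le
    rw [bad, indicator_of_mem (show F.pt ξ t ∈ {y | _ < S.J F R y} from (h _ hx hz).1)]
  · refine le_of_eq_of_le (ENNReal.tsum_eq_zero.2 fun t => ?_) zero_le
    rw [indicator_apply_eq_zero]
    refine fun _ => indicator_of_notMem (fun hx => hξ ?_) _
    have := (abs_inner_le (x := F.pt ξ t) F.he).trans (mem_ball_zero_iff.1 (hL hx)).le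
    rw [F.pt_e] at this
    exact abs_le.1 this

lemma sl_sign {x p : E3} {θ m τ : ℝ} (hx : S.w x = 0) (h : om (S.N x) p ≤ θ) (hθ : θ ≤ 1 / 5)
    (hp : 7 / 10 ≤ ⟪p, F.n⟫) (hτ : τ = 1 ∨ τ = -1) (hm : 0 ≤ m) (he : m + θ ≤ τ * ⟪p, F.e⟫) :
    m ≤ -τ * S.sl F x := by
  have a0 := S.slope F hx (by linarith [(om_abs h F.hn).1])
  have a1 := (S.abs_N_le F hx).trans (S.abs_u_le F hx)
  obtain ⟨σ, hσ, h⟩ := om_inner h
  have a2 := abs_le.1 (h _ F.hn)
  have a3 := abs_le.1 (h _ F.he)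
  have a4 := abs_le.1 a1
  have b1 : 0 < σ * ⟪S.N x, F.n⟫ := by linarith [a2.1]
  have b2 : σ * ⟪S.N x, F.n⟫ ≤ 1 := by rcases hσ with rfl | rfl <;> linarith [a4.1, a4.2]
  have b3 : m ≤ τ * (σ * ⟪S.N x, F.e⟫) := by rcases hτ with rfl | rfl <;> linarith [a3.1, a3.2]
  have b4 : -τ * S.sl F x * (σ * ⟪S.N x, F.n⟫) = τ * (σ * ⟪S.N x, F.e⟫) := by
    linear_combination (-τ * σ) * a0
  by_contra hc
  have b5 : 0 ≤ -τ * S.sl F x := by
    by_contra h5
    nlinarith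
  nlinarith

/-- from a good point of a cell to a curve above the row `σ` -/
lemma leg {L R θ σ : ℝ} {p y : E3} (hL : 1 ≤ L) (hR : 7 * L ≤ R) (hθ : 0 < θ) (hθ' : θ < 1 / 15)
    (hp : 7 / 10 ≤ ⟪p, F.n⟫) (hσ : σ ∈ Icc (0 : ℝ) 1) (hrow : S.row F R σ ≤ ENNReal.ofReal θ)
    (hy : y ∈ ball 0 L) (hw : S.w y = 0) (ho : om (S.N y) p ≤ θ)
    (hJ : S.J F.swap R y ≤ ENNReal.ofReal θ) :
    ∃ y', ⟪y', F.f⟫ = σ ∧ |S.ht F y' 0| ≤ 7 * L ∧
      ∀ s ∈ Icc (-R) R, S.w (S.cv F y' s) = 0 ∧ om (S.N (S.cv F y' s)) p ≤ 3 * θ := by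
  have hn := (mem_ball_zero_iff.1 hy).le
  have c1 := (abs_inner_le (x := y) F.he).trans hn
  have c2 := (abs_inner_le (x := y) F.hf).trans hn
  have c3 := (abs_inner_le (x := y) F.hn).trans hn
  have hσR : σ ∈ Icc (-R) R := ⟨by linarith [hσ.1], by linarith [hσ.2]⟩
  have hσ1 : |σ| ≤ 1 := abs_le.2 ⟨by linarith [hσ.1], hσ.2⟩
  obtain ⟨g1, g2⟩ := S.go F.swap (R := R) (by linarith) hθ.le (c2.trans (by linarith))
    (c1.trans (by linarith)) (c3.trans (by linarith)) hw hJ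
    (show _ < |⟪S.N y, F.n⟫| by linarith [(om_abs ho F.hn).1]) σ hσR
  set y' := S.cv F.swap y σ with hy'
  have e1 : ⟪y', F.f⟫ = σ := S.cv_e F.swap y σ
  have e2 : ⟪y', F.e⟫ = ⟪y, F.e⟫ := S.cv_f F.swap y σ
  have e3 : |⟪y', F.n⟫| ≤ 5 * L := by
    have d1 := S.ht_drift F.swap (y := y) (fun t _ => S.abs_sl _ _) hσR
      (abs_le.1 (c2.trans (by linarith)))
    have d2 : S.ht F.swap y ⟪y, F.f⟫ = ⟪y, F.n⟫ := S.ht_self F.swap y
    have d3 : S.ht F.swap y σ = ⟪y', F.n⟫ := rfl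
    rw [d2, d3] at d1
    linarith [abs_sub_abs_le_abs_sub ⟪y', F.n⟫ ⟪y, F.n⟫, abs_sub σ ⟪y, F.f⟫]
  have ho' : om (S.N y') p ≤ 2 * θ := by linarith [om_le (S.N y) (S.N y') p]
  have hJ' : S.J F R y' ≤ ENNReal.ofReal θ := by
    refine le_trans ?_ ((S.sum_J F R (⟪y', F.e⟫, ⟪y', F.f⟫)).trans (e1 ▸ hrow))
    refine le_trans (le_of_eq ?_) (ENNReal.le_tsum ⟪y', F.n⟫)
    rw [F.pt_coord]
  have g := S.go F (R := R) (by linarith) hθ.le (by rw [e2]; linarith) (by rw [e1]; linarith)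
    (by linarith) g1 hJ' (by linarith [(om_abs ho' F.hn).1])
  refine ⟨y', e1, ?_, fun s hs => ⟨(g s hs).1, by
    linarith [om_le (S.N y') (S.N (S.cv F y' s)) p, (g s hs).2]⟩⟩
  have d1 := S.ht_drift F (y := y') (s := 0) (fun t _ => S.abs_sl _ _) ⟨by linarith, by linarith⟩
    (abs_le.1 (show |⟪y', F.e⟫| ≤ R by rw [e2]; linarith))
  rw [S.ht_self, zero_sub, abs_neg, e2] at d1
  linarith [abs_sub_abs_le_abs_sub (S.ht F y' 0) ⟪y', F.n⟫]

/-- the bound for the mass of a light cell -/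
noncomputable def lt (L R θ : ℝ) : ℝ≥0∞ :=
  2 * (ENNReal.ofReal (2 * L) *
    ((3 * ∫⁻ x in ball 0 (8 * R), ‖fderiv ℝ S.N x‖ₑ ∂ar S.w) * ENNReal.ofReal θ⁻¹))

lemma good_pt {L R θ : ℝ} {p : E3} (hθ : 0 < θ) (hθ' : θ < 1 / 15) (hp : 7 / 10 ≤ ⟪p, F.n⟫)
    (h : S.lt L R θ < ar S.w (ball 0 L ∩ {x | om (S.N x) p ≤ θ})) :
    ∃ y ∈ ball 0 L, S.w y = 0 ∧ om (S.N y) p ≤ θ ∧ S.J F R y ≤ ENNReal.ofReal θ := by
  by_contra hc
  push Not at hc
  refine h.not_ge ((S.mass_le F (R := R) hθ (measurableSet_ball.inter (isClosed_le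
    ((continuous_om p).comp S.hN.continuous) continuous_const).measurableSet) inter_subset_left
    fun y hy hw => ⟨hc y hy.1 hw hy.2, ?_⟩).trans ?_)
  · linarith [(om_abs hy.2 F.hn).1, S.abs_N_le F hw]
  · rw [lt]; gcongr; exact (S.int_row F R).2

lemma cross' {L R α : ℝ} {p q : E3} (hL : 1 ≤ L) (hR : 7 * L ≤ R) (hα : 0 < α) (hα1 : α ≤ 1)
    (hRα : 29 * L ≤ R * α) (hp : ‖p‖ = 1) (hq : ‖q‖ = 1) (hpq : 0 ≤ ⟪p, q⟫) (hd : α ≤ ‖p - q‖)
    (hε : 3 * ∫⁻ x in ball 0 (8 * R), ‖fderiv ℝ S.N x‖ₑ ∂ar S.w ≤ ENNReal.ofReal (α / 16))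
    (h1 : S.lt L R (α / 16) < ar S.w (ball 0 L ∩ {x | om (S.N x) p ≤ α / 16}))
    (h2 : S.lt L R (α / 16) < ar S.w (ball 0 L ∩ {x | om (S.N x) q ≤ α / 16})) : False := by
  have pp : ⟪p, p⟫ = 1 := by rw [real_inner_self_eq_norm_sq, hp]; norm_num
  have qq : ⟪q, q⟫ = 1 := by rw [real_inner_self_eq_norm_sq, hq]; norm_num
  have qp : ⟪q, p⟫ = ⟪p, q⟫ := real_inner_comm _ _
  have n1 : ‖p + q‖ ^ 2 = 2 + 2 * ⟪p, q⟫ := by rw [norm_add_sq_real, hp, hq]; ring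
  have n2 : ‖p - q‖ ^ 2 = 2 - 2 * ⟪p, q⟫ := by rw [norm_sub_sq_real, hp, hq]; ring
  have n3 : 7 / 5 ≤ ‖p + q‖ := by
    by_contra h
    nlinarith [norm_nonneg (p + q)]
  have n4 : 0 < ‖p - q‖ := hα.trans_le hd
  have n5 : 0 < ‖p + q‖ := by linarith
  obtain ⟨F, he, hn⟩ := exists_frame_en (e := ‖p - q‖⁻¹ • (p - q)) (n := ‖p + q‖⁻¹ • (p + q))
    (norm_smul_inv_norm (norm_pos_iff.1 n4)) (norm_smul_inv_norm (norm_pos_iff.1 n5)) (by
      simp only [real_inner_smul_left, real_inner_smul_right, inner_sub_left, inner_add_right, pp,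
        qq, qp]; ring)
  have pn : 7 / 10 ≤ ⟪p, F.n⟫ := by
    rw [hn, real_inner_smul_right, inner_add_right, pp, le_inv_mul_iff₀ n5]; nlinarith
  have qn : 7 / 10 ≤ ⟪q, F.n⟫ := by
    rw [hn, real_inner_smul_right, inner_add_right, qq, qp, le_inv_mul_iff₀ n5]; nlinarith
  have pe : α / 2 ≤ ⟪p, F.e⟫ := by
    rw [he, real_inner_smul_right, inner_sub_right, pp, le_inv_mul_iff₀ n4]; nlinarith
  have qe : α / 2 ≤ -⟪q, F.e⟫ := by
    rw [he, real_inner_smul_right, inner_sub_right, qq, qp, ← mul_neg, le_inv_mul_iff₀ n4]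
    nlinarith
  have hθ : 0 < α / 16 := by positivity
  have hθ' : α / 16 < 1 / 15 := by linarith
  obtain ⟨σ, hσ, hrow⟩ := exists_le_of_vol (s := Icc (0 : ℝ) 1) (by simp) (S.int_row F R).1
  replace hrow := hrow.trans ((S.int_row F R).2.trans hε)
  obtain ⟨y₁, a1, a2, a3, a4⟩ := S.good_pt F.swap hθ hθ' pn h1
  obtain ⟨y₂, b1, b2, b3, b4⟩ := S.good_pt F.swap hθ hθ' qn h2
  obtain ⟨z₁, c1, c2, c3⟩ := S.leg F hL hR hθ hθ' pn hσ hrow a1 a2 a3 a4
  obtain ⟨z₂, d1, d2, d3⟩ := S.leg F hL hR hθ hθ' qn hσ hrow b1 b2 b3 b4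
  have sl : ∀ s ∈ Icc (-R) R, α / 2 ≤ S.sl F (S.cv F z₂ s) - S.sl F (S.cv F z₁ s) := fun s hs => by
    have e1 := S.sl_sign F (m := α / 4) (c3 s hs).1 (c3 s hs).2 (by linarith) pn (Or.inl rfl)
      (by positivity) (by linarith)
    have e2 := S.sl_sign F (m := α / 4) (d3 s hs).1 (d3 s hs).2 (by linarith) qn (Or.inr rfl)
      (by positivity) (by linarith)
    linarith
  set d : ℝ → ℝ := fun s => S.ht F z₂ s - S.ht F z₁ s with hd'
  have dd : ∀ s, HasDerivAt d (S.sl F (S.cv F z₂ s) - S.sl F (S.cv F z₁ s)) s := fun s =>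
    (S.ht_deriv F z₂ s).sub (S.ht_deriv F z₁ s)
  have dc : Continuous d := continuous_iff_continuousAt.2 fun s => (dd s).continuousAt
  have mono := (convex_Icc (-R) R).mul_sub_le_image_sub_of_le_deriv dc.continuousOn
    (fun s _ => (dd s).differentiableAt.differentiableWithinAt) (C := α / 2)
    (fun s hs => by rw [(dd s).deriv]; exact sl s (interior_subset hs))
  have hR0 : 0 ≤ R := by linarith
  have m1 := mono 0 ⟨by linarith, hR0⟩ R ⟨by linarith, le_rfl⟩ hR0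
  have m2 := mono (-R) ⟨le_rfl, by linarith⟩ 0 ⟨by linarith, hR0⟩ (by linarith)
  have m3 : |d 0| ≤ 14 * L := by linarith [abs_sub (S.ht F z₂ 0) (S.ht F z₁ 0)]
  obtain ⟨s, hs, h0⟩ := intermediate_value_Icc (a := -R) (b := R) (by linarith) dc.continuousOn
    (show (0 : ℝ) ∈ Icc (d (-R)) (d R) from
      ⟨by nlinarith [(abs_le.1 m3).2], by nlinarith [(abs_le.1 m3).1]⟩)
  have : S.cv F z₂ s = S.cv F z₁ s := by
    rw [S.cv_eq, S.cv_eq, c1, d1, sub_eq_zero.1 h0]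
  have := sl s hs
  simp_all only [sub_self]
  linarith

/-- **Non-crossing.** Two heavy cells have close centres. -/
theorem cross {L R α : ℝ} {p q : E3} (hL : 1 ≤ L) (hR : 7 * L ≤ R) (hα : 0 < α) (hα1 : α ≤ 1)
    (hRα : 29 * L ≤ R * α) (hp : ‖p‖ = 1) (hq : ‖q‖ = 1)
    (hε : 3 * ∫⁻ x in ball 0 (8 * R), ‖fderiv ℝ S.N x‖ₑ ∂ar S.w ≤ ENNReal.ofReal (α / 16))
    (h1 : S.lt L R (α / 16) < ar S.w (ball 0 L ∩ {x | om (S.N x) p ≤ α / 16}))
    (h2 : S.lt L R (α / 16) < ar S.w (ball 0 L ∩ {x | om (S.N x) q ≤ α / 16})) : om p q < α := by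
  by_contra hc
  push Not at hc
  rcases le_total 0 ⟪p, q⟫ with h | h
  · exact S.cross' hL hR hα hα1 hRα hp hq h (hc.trans (min_le_left _ _)) hε h1 h2
  · refine S.cross' (q := -q) hL hR hα hα1 hRα hp (by simpa) (by rw [inner_neg_right]; linarith)
      (by rw [sub_neg_eq_add]; exact hc.trans (min_le_right _ _)) hε h1 (by simpa only [om_neg])

end Dat

end Vale.Agent.P218UF
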