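import Vale.Agent.P218GA.Jac
import Mathlib.Analysis.Calculus.Gradient.Basic
import Mathlib.Analysis.Calculus.InverseFunctionTheorem.ContDiff
import Mathlib.MeasureTheory.Measure.Prod

/-! The area formula for the projection of a level set along a fixed direction. -/

open MeasureTheory Set Filter Topology Metric
open scoped ENNReal NNReal RealInnerProductSpace

namespace Vale.Agent.P218UF

open Vale.Agent.P218GA

/-- Euclidean three-space -/
abbrev E3 := EuclideanSpace ℝ (Fin 3)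

/-- an orthonormal frame -/
structure Frame where
  e : E3
  f : E3
  n : E3
  he : ‖e‖ = 1
  hf : ‖f‖ = 1
  hn : ‖n‖ = 1
  ef : ⟪e, f⟫ = 0
  en : ⟪e, n⟫ = 0
  fn : ⟪f, n⟫ = 0
  span : ∀ x : E3, x = ⟪x, e⟫ • e + ⟪x, f⟫ • f + ⟪x, n⟫ • n

namespace Frame

variable (F : Frame)

/-- exchange the two horizontal directions -/
def swap : Frame where
  e := F.f
  f := F.e
  n := F.n
  he := F.hf
  hf := F.he
  hn := F.hn
  ef := by rw [real_inner_comm]; exact F.ef
  en := F.fn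
  fn := F.en
  span x := by rw [add_comm (⟪x, F.f⟫ • F.f)]; exact F.span x

/-- the point with horizontal coordinates `s` and height `t` -/
noncomputable def pt (s : ℝ × ℝ) (t : ℝ) : E3 := s.1 • F.e + s.2 • F.f + t • F.n

lemma ee : ⟪F.e, F.e⟫ = 1 := by rw [real_inner_self_eq_norm_sq, F.he]; norm_num
lemma ff : ⟪F.f, F.f⟫ = 1 := by rw [real_inner_self_eq_norm_sq, F.hf]; norm_num
lemma nn : ⟪F.n, F.n⟫ = 1 := by rw [real_inner_self_eq_norm_sq, F.hn]; norm_num
lemma fe : ⟪F.f, F.e⟫ = 0 := by rw [real_inner_comm]; exact F.ef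
lemma ne : ⟪F.n, F.e⟫ = 0 := by rw [real_inner_comm]; exact F.en
lemma nf : ⟪F.n, F.f⟫ = 0 := by rw [real_inner_comm]; exact F.fn

@[simp] lemma pt_e (s : ℝ × ℝ) (t : ℝ) : ⟪F.pt s t, F.e⟫ = s.1 := by
  simp [pt, inner_add_left, real_inner_smul_left, F.he, F.fe, F.ne]
@[simp] lemma pt_f (s : ℝ × ℝ) (t : ℝ) : ⟪F.pt s t, F.f⟫ = s.2 := by
  simp [pt, inner_add_left, real_inner_smul_left, F.hf, F.ef, F.nf]
@[simp] lemma pt_n (s : ℝ × ℝ) (t : ℝ) : ⟪F.pt s t, F.n⟫ = t := by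
  simp [pt, inner_add_left, real_inner_smul_left, F.hn, F.en, F.fn]

lemma pt_coord (x : E3) : F.pt (⟪x, F.e⟫, ⟪x, F.f⟫) ⟪x, F.n⟫ = x := (F.span x).symm

lemma swap_pt (s : ℝ × ℝ) (t : ℝ) : F.swap.pt s t = F.pt s.swap t := by
  simp only [pt, swap, Prod.fst_swap, Prod.snd_swap]
  rw [add_comm (s.1 • F.f)]

lemma ext_coord {x y : E3} (h1 : ⟪x, F.e⟫ = ⟪y, F.e⟫) (h2 : ⟪x, F.f⟫ = ⟪y, F.f⟫)
    (h3 : ⟪x, F.n⟫ = ⟪y, F.n⟫) : x = y := by
  rw [F.span x, F.span y, h1, h2, h3]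

lemma inner_eq (x y : E3) :
    ⟪x, y⟫ = ⟪x, F.e⟫ * ⟪y, F.e⟫ + ⟪x, F.f⟫ * ⟪y, F.f⟫ + ⟪x, F.n⟫ * ⟪y, F.n⟫ := by
  conv_lhs => rw [F.span y]
  simp only [inner_add_right, real_inner_smul_right]
  ring

lemma norm_le (x : E3) : ‖x‖ ≤ |⟪x, F.e⟫| + |⟪x, F.f⟫| + |⟪x, F.n⟫| := by
  conv_lhs => rw [F.span x]
  refine (norm_add₃_le).trans (le_of_eq ?_)
  simp only [norm_smul, Real.norm_eq_abs, F.he, F.hf, F.hn, mul_one]

lemma pt_sub (s : ℝ × ℝ) (t t' : ℝ) : ‖F.pt s t - F.pt s t'‖ = |t - t'| := by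
  have : F.pt s t - F.pt s t' = (t - t') • F.n := by simp only [pt, sub_smul]; abel
  rw [this, norm_smul, F.hn, mul_one, Real.norm_eq_abs]

lemma continuous_pt : Continuous fun p : (ℝ × ℝ) × ℝ => F.pt p.1 p.2 := by
  unfold pt; fun_prop

end Frame

lemma abs_inner_le {x e : E3} (he : ‖e‖ = 1) : |⟪x, e⟫| ≤ ‖x‖ := by
  simpa [he] using abs_real_inner_le_norm x e

/-- the area measure of the level set -/
noncomputable def ar (w : E3 → ℝ) : Measure E3 := (μHE[2] : Measure E3).restrict {x | w x = 0}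

/-- the sum of `g` over the points of the level set above `s` -/
noncomputable def fs (F : Frame) (w : E3 → ℝ) (g : E3 → ℝ≥0∞) (s : ℝ × ℝ) : ℝ≥0∞ :=
  ∑' t : ℝ, {x | w x = 0}.indicator g (F.pt s t)

variable {F : Frame} {w : E3 → ℝ}

lemma fs_swap (g : E3 → ℝ≥0∞) (s : ℝ × ℝ) : fs F.swap w g s = fs F w g s.swap := by
  simp only [fs, F.swap_pt]

lemma fs_mono {g g' : E3 → ℝ≥0∞} (h : ∀ x, w x = 0 → g x ≤ g' x) (s : ℝ × ℝ) :
    fs F w g s ≤ fs F w g' s :=
  ENNReal.tsum_le_tsum fun _ => indicator_le_indicator' fun hx => h _ hx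

lemma inner_grad (w : E3 → ℝ) (x v : E3) : ⟪gradient w x, v⟫ = fderiv ℝ w x v := inner_gradient_left

lemma continuous_grad (hw : ContDiff ℝ 1 w) : Continuous (gradient w) :=
  (InnerProductSpace.toDual ℝ E3).symm.continuous.comp (hw.continuous_fderiv (by norm_num))

/-- local graph property -/
lemma exists_graph (F : Frame) (hw : ContDiff ℝ 1 w) {p : E3} (hp : ⟪gradient w p, F.n⟫ ≠ 0) :
    ∃ U ∈ 𝓝 p, ∃ (O : Set (ℝ × ℝ)) (g : ℝ × ℝ → E3), IsOpen O ∧ ContDiffOn ℝ 1 g O ∧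
      (∀ s ∈ O, w (g s) = 0 ∧ g s = F.pt s ⟪g s, F.n⟫) ∧
      (∀ s t, F.pt s t ∈ U → w (F.pt s t) = 0 → s ∈ O ∧ g s = F.pt s t) := by
  set Θ₁ : E3 → (ℝ × ℝ) × ℝ := fun x => ((⟪x, F.e⟫, ⟪x, F.f⟫), w x) with hΘ₁
  set D : E3 → E3 →L[ℝ] (ℝ × ℝ) × ℝ := fun x =>
    ((innerSL ℝ F.e).prod (innerSL ℝ F.f)).prod (fderiv ℝ w x) with hD
  have hc1 : Θ₁ = fun x => ((innerSL ℝ F.e x, innerSL ℝ F.f x), w x) := by
    ext x <;> simp [hΘ₁, real_inner_comm]
  have hfd : ∀ x, HasFDerivAt Θ₁ (D x) x := fun x => by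
    rw [hc1]
    exact ((innerSL ℝ F.e).hasFDerivAt.prodMk (innerSL ℝ F.f).hasFDerivAt).prodMk
      ((hw.differentiable (by norm_num)) x).hasFDerivAt
  have hfc : ContDiff ℝ 1 Θ₁ := by
    rw [hc1]
    exact ((innerSL ℝ F.e).contDiff.prodMk (innerSL ℝ F.f).contDiff).prodMk hw
  have hO : IsOpen {x | ⟪gradient w x, F.n⟫ ≠ 0} :=
    isOpen_ne_fun ((continuous_grad hw).inner continuous_const) continuous_const
  have hequiv : ∀ x, ⟪gradient w x, F.n⟫ ≠ 0 → ∃ e : E3 ≃L[ℝ] (ℝ × ℝ) × ℝ,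
      (e : E3 →L[ℝ] (ℝ × ℝ) × ℝ) = D x := by
    intro x hx
    have hinj : Function.Injective (D x : E3 →ₗ[ℝ] (ℝ × ℝ) × ℝ) := by
      rw [injective_iff_map_eq_zero]
      intro v hv
      have h1 : ⟪F.e, v⟫ = 0 := congrArg (fun z => z.1.1) hv
      have h2 : ⟪F.f, v⟫ = 0 := congrArg (fun z => z.1.2) hv
      have h3 : fderiv ℝ w x v = 0 := congrArg Prod.snd hv
      rw [real_inner_comm] at h1 h2
      rw [← inner_grad, F.inner_eq, h1, h2] at h3
      have h4 : ⟪v, F.n⟫ = 0 := by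
        rw [mul_zero, mul_zero, zero_add, zero_add] at h3
        exact (mul_eq_zero.1 h3).resolve_left hx
      rw [F.span v, h1, h2, h4]; simp
    refine ⟨(LinearMap.linearEquivOfInjective _ hinj (by simp)).toContinuousLinearEquiv, ?_⟩
    ext v <;> rfl
  obtain ⟨e₀, he₀⟩ := hequiv p hp
  set Θ₀ := hfc.contDiffAt.toOpenPartialHomeomorph Θ₁ (he₀ ▸ hfd p) (by norm_num) with hΘ₀
  set Θ := Θ₀.restrOpen _ hO with hΘ
  have hc : (Θ : E3 → (ℝ × ℝ) × ℝ) = Θ₁ := rfl
  have hps : p ∈ Θ.source := ⟨hfc.contDiffAt.mem_toOpenPartialHomeomorph_source _ _, hp⟩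
  have hsymm : ContDiffOn ℝ 1 Θ.symm Θ.target := fun z hz => by
    obtain ⟨e, he⟩ := hequiv _ (Θ.map_target hz).2
    exact (Θ.contDiffAt_symm hz (by rw [he, hc]; exact hfd _)
      (hc ▸ hfc.contDiffAt)).contDiffWithinAt
  refine ⟨Θ.source, Θ.open_source.mem_nhds hps, {s | (s, (0 : ℝ)) ∈ Θ.target},
    fun s => Θ.symm (s, 0), Θ.open_target.preimage (by fun_prop),
    hsymm.comp (by fun_prop) fun s hs => hs, fun s hs => ?_, fun s t hU hz => ?_⟩
  · have h := Θ.right_inv hs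
    rw [hc] at h
    have h1 : ⟪Θ.symm (s, 0), F.e⟫ = s.1 := congrArg (fun z => z.1.1) h
    have h2 : ⟪Θ.symm (s, 0), F.f⟫ = s.2 := congrArg (fun z => z.1.2) h
    exact ⟨congrArg Prod.snd h, F.ext_coord (by simp [h1]) (by simp [h2]) (by simp)⟩
  · have h : Θ (F.pt s t) = (s, 0) := by
      rw [hc]; simp [hΘ₁, hz]
    exact ⟨by simpa [← h] using Θ.map_source hU, by simp only [← h]; exact Θ.left_inv hU⟩

/-- the Jacobian of a graph parametrisation -/
lemma jac_graph (hw : ContDiff ℝ 1 w) {O : Set (ℝ × ℝ)} {g : ℝ × ℝ → E3} (hO : IsOpen O)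
    (hg : ContDiffOn ℝ 1 g O) (h : ∀ s ∈ O, w (g s) = 0 ∧ g s = F.pt s ⟪g s, F.n⟫) {s : ℝ × ℝ}
    (hs : s ∈ O) (h1 : ‖gradient w (g s)‖ = 1) :
    Function.Injective (fderiv ℝ g s) ∧
      par (fderiv ℝ g s (1, 0)) (fderiv ℝ g s (0, 1)) * |⟪gradient w (g s), F.n⟫| = 1 := by
  have hd : HasFDerivAt g (fderiv ℝ g s) s :=
    ((hg.contDiffAt (hO.mem_nhds hs)).differentiableAt one_ne_zero).hasFDerivAt
  have hev : ∀ᶠ z in 𝓝 s, z ∈ O := hO.mem_nhds hs
  have de : ∀ v, ⟪fderiv ℝ g s v, F.e⟫ = v.1 := by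
    have a1 := (innerSL ℝ F.e).hasFDerivAt.comp s hd
    have a2 : HasFDerivAt (innerSL ℝ F.e ∘ g) (ContinuousLinearMap.fst ℝ ℝ ℝ) s :=
      hasFDerivAt_fst.congr_of_eventuallyEq (hev.mono fun z hz => by
        simp only [Function.comp, innerSL_apply_apply]
        rw [(h z hz).2, real_inner_comm, F.pt_e])
    intro v
    have := congrArg (fun L => L v) (a1.unique a2)
    simpa [real_inner_comm] using this
  have df : ∀ v, ⟪fderiv ℝ g s v, F.f⟫ = v.2 := by
    have a1 := (innerSL ℝ F.f).hasFDerivAt.comp s hd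
    have a2 : HasFDerivAt (innerSL ℝ F.f ∘ g) (ContinuousLinearMap.snd ℝ ℝ ℝ) s :=
      hasFDerivAt_snd.congr_of_eventuallyEq (hev.mono fun z hz => by
        simp only [Function.comp, innerSL_apply_apply]
        rw [(h z hz).2, real_inner_comm, F.pt_f])
    intro v
    have := congrArg (fun L => L v) (a1.unique a2)
    simpa [real_inner_comm] using this
  have dw : ∀ v, ⟪gradient w (g s), fderiv ℝ g s v⟫ = 0 := by
    have a1 := ((hw.differentiable one_ne_zero) (g s)).hasFDerivAt.comp s hd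
    have a2 : HasFDerivAt (w ∘ g) (0 : ℝ × ℝ →L[ℝ] ℝ) s :=
      (hasFDerivAt_const (0 : ℝ) s).congr_of_eventuallyEq (hev.mono fun z hz => (h z hz).1)
    intro v
    have := congrArg (fun L => L v) (a1.unique a2)
    rw [inner_grad]
    simpa using this
  refine ⟨?_, ?_⟩
  · rw [injective_iff_map_eq_zero]
    intro v hv
    have a := de v
    have b := df v
    rw [hv, inner_zero_left] at a b
    exact Prod.ext a.symm b.symm
  · set ν := gradient w (g s)
    set a := fderiv ℝ g s (1, 0)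
    set b := fderiv ℝ g s (0, 1)
    have ae : ⟪a, F.e⟫ = 1 := de _
    have af : ⟪a, F.f⟫ = 0 := df _
    have be : ⟪b, F.e⟫ = 0 := de _
    have bf : ⟪b, F.f⟫ = 1 := df _
    have na := dw (1, 0)
    have nb := dw (0, 1)
    have nn : ⟪ν, ν⟫ = 1 := by rw [real_inner_self_eq_norm_sq, h1]; norm_num
    rw [F.inner_eq] at na nb nn
    rw [ae, af] at na
    rw [be, bf] at nb
    rw [par, ← real_inner_self_eq_norm_sq, ← real_inner_self_eq_norm_sq, F.inner_eq a a,
      F.inner_eq b b, F.inner_eq a b, ae, af, be, bf, ← Real.sqrt_sq_eq_abs,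
      ← Real.sqrt_mul (by nlinarith [sq_nonneg ⟪a, F.n⟫, sq_nonneg ⟪b, F.n⟫]), Real.sqrt_eq_one]
    have e1 : ⟪ν, F.e⟫ = -(⟪ν, F.n⟫ * ⟪a, F.n⟫) := by linarith
    have e2 : ⟪ν, F.f⟫ = -(⟪ν, F.n⟫ * ⟪b, F.n⟫) := by linarith
    rw [e1, e2] at nn
    linarith

/-- **Area formula for the projection.** -/
theorem lintegral_fs (F : Frame) (hw : ContDiff ℝ 1 w) (h1 : ∀ x, w x = 0 → ‖gradient w x‖ = 1)
    {g : E3 → ℝ≥0∞} (hg : Measurable g)
    (hs : ∀ x, w x = 0 → g x ≠ 0 → ⟪gradient w x, F.n⟫ ≠ 0) :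
    Measurable (fs F w g) ∧
      ∫⁻ s, fs F w g s = ∫⁻ x, g x * ENNReal.ofReal |⟪gradient w x, F.n⟫| ∂ar w := by
  classical
  have hZ : MeasurableSet {x | w x = 0} :=
    (isClosed_eq hw.continuous continuous_const).measurableSet
  have hm : Measurable fun x => ENNReal.ofReal |⟪gradient w x, F.n⟫| :=
    (((continuous_grad hw).inner continuous_const).abs).measurable.ennreal_ofReal
  choose! U hU O γ hO hγ hγ1 hγ2 using fun p (hp : p ∈ {x | ⟪gradient w x, F.n⟫ ≠ 0}) =>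
    exists_graph F hw hp
  obtain ⟨A, hAm, hAd, hAc, hAt⟩ := exists_partition hU
  have loc : ∀ n, Measurable (fs F w ((A n).indicator g)) ∧ ∫⁻ s, fs F w ((A n).indicator g) s =
      ∫⁻ x in A n, g x * ENNReal.ofReal |⟪gradient w x, F.n⟫| ∂ar w := by
    intro n
    rcases hAt n with h0 | ⟨p, hp, hAp⟩
    · have : fs F w ((A n).indicator g) = fun _ => 0 := by
        ext s; simp [fs, h0]
      rw [this, h0]; simp
    set D : Set (ℝ × ℝ) := O p ∩ γ p ⁻¹' A n with hDdef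
    have hcont : ContinuousOn (γ p) (O p) := (hγ p hp).continuousOn
    have hres : Measurable ((O p).domRestrict (γ p)) := hcont.domRestrict.measurable
    have hDm : MeasurableSet D := by
      have : D = Subtype.val '' ((O p).domRestrict (γ p) ⁻¹' A n) := by
        ext s; constructor
        · rintro ⟨a, b⟩; exact ⟨⟨s, a⟩, b, rfl⟩
        · rintro ⟨z, hz, rfl⟩; exact ⟨z.2, hz⟩
      rw [this]
      exact (MeasurableEmbedding.subtype_coe (hO p hp).measurableSet).measurableSet_image' (hres (hAm n))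
    have hfs : fs F w ((A n).indicator g) = D.indicator fun s => g (γ p s) := by
      ext s
      by_cases hsD : s ∈ D
      · rw [indicator_of_mem hsD, fs, tsum_eq_single ⟪γ p s, F.n⟫]
        · rw [← (hγ1 p hp s hsD.1).2, indicator_of_mem (by exact (hγ1 p hp s hsD.1).1),
            indicator_of_mem (show γ p s ∈ A n from hsD.2)]
        · intro t ht
          by_contra hne
          have a1 := mem_of_indicator_ne_zero hne
          rw [indicator_of_mem a1] at hne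
          have a2 := mem_of_indicator_ne_zero hne
          exact ht (by rw [(hγ2 p hp s t (hAp a2) a1).2, F.pt_n])
      · rw [indicator_of_notMem hsD, fs, ENNReal.tsum_eq_zero]
        intro t
        by_contra hne
        have a1 := mem_of_indicator_ne_zero hne
        rw [indicator_of_mem a1] at hne
        have a2 := mem_of_indicator_ne_zero hne
        obtain ⟨b1, b2⟩ := hγ2 p hp s t (hAp a2) a1
        exact hsD ⟨b1, by rw [mem_preimage, b2]; exact a2⟩
    have himg : γ p '' D = A n ∩ {x | w x = 0} := by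
      ext x; constructor
      · rintro ⟨s, hsD, rfl⟩; exact ⟨hsD.2, (hγ1 p hp s hsD.1).1⟩
      · rintro ⟨a, b⟩
        have c := hγ2 p hp (⟪x, F.e⟫, ⟪x, F.f⟫) ⟪x, F.n⟫ (by rw [F.pt_coord]; exact hAp a)
          (by rw [F.pt_coord]; exact b)
        rw [F.pt_coord] at c
        exact ⟨_, ⟨c.1, by rw [mem_preimage, c.2]; exact a⟩, c.2⟩
    have hinj : InjOn (γ p) D := fun s hs s' hs' e => by
      have a := (hγ1 p hp s hs.1).2
      have b := (hγ1 p hp s' hs'.1).2
      refine Prod.ext ?_ ?_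
      · rw [← F.pt_e s, ← a, e, b, F.pt_e]
      · rw [← F.pt_f s, ← a, e, b, F.pt_f]
    have hJ := fun s (hs : s ∈ O p) =>
      jac_graph hw (hO p hp) (hγ p hp) (hγ1 p hp) hs (h1 _ (hγ1 p hp s hs).1)
    refine ⟨?_, ?_⟩
    · rw [hfs]
      have e : (D.indicator fun s => g (γ p s)) = D.indicator fun s =>
          g ((O p).piecewise (γ p) (fun _ => 0) s) := by
        refine indicator_congr fun s hs => ?_
        rw [piecewise_eq_of_mem _ _ _ hs.1]
      rw [e]
      exact (hg.comp (hcont.measurable_piecewise continuousOn_const (hO p hp).measurableSet)).indicator hDm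
    · have hA := isJac_prod.lintegral_image (hO p hp) (hγ p hp) (fun s hs => (hJ s hs).1) hDm
        inter_subset_left hinj fun x => g x * ENNReal.ofReal |⟪gradient w x, F.n⟫|
      rw [himg, show ((2 : ℝ)) = ((2 : ℕ) : ℝ) by norm_num, hausdorff_eq_smul,
        Measure.restrict_smul, lintegral_smul_measure] at hA
      rw [hfs, lintegral_indicator hDm, ar, Measure.restrict_restrict (hAm n)]
      have hc0 : (cH 2 : ℝ≥0∞) ≠ 0 := by exact_mod_cast (cH_pos 2).ne'
      refine ((ENNReal.mul_right_inj hc0 ENNReal.coe_ne_top).1 ?_).symm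
      rw [← lintegral_const_mul' (μ := volume.restrict D) _ _ ENNReal.coe_ne_top]
      refine Eq.trans ?_ (hA.trans (setLIntegral_congr_fun hDm fun s hs => ?_))
      · rfl
      · have a := (hJ s hs.1).2
        have b : 0 ≤ par (fderiv ℝ (γ p) s (1, 0)) (fderiv ℝ (γ p) s (0, 1)) := Real.sqrt_nonneg _
        simp only [jac2]
        rw [ENNReal.ofReal_mul (cH_pos' 2).le, ENNReal.ofReal_coe_nnreal, mul_assoc,
          mul_left_comm (ENNReal.ofReal _), ← ENNReal.ofReal_mul b, a]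
        simp
  have hsum : fs F w g = fun s => ∑' n, fs F w ((A n).indicator g) s := by
    ext s
    simp only [fs]
    rw [ENNReal.tsum_comm]
    refine tsum_congr fun t => ?_
    by_cases hz : F.pt s t ∈ {x | w x = 0}
    · simp only [indicator_of_mem hz]
      by_cases hg0 : g (F.pt s t) = 0
      · simp [hg0, indicator]
      · obtain ⟨n, hn⟩ := mem_iUnion.1 (hAc (hs _ hz hg0))
        rw [tsum_eq_single n, indicator_of_mem hn]
        intro m hm
        exact indicator_of_notMem (fun h => (disjoint_left.1 (hAd hm)) h hn) _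
    · simp [indicator_of_notMem hz]
  refine ⟨hsum ▸ Measurable.tsum fun n => (loc n).1, ?_⟩
  rw [hsum, lintegral_tsum fun n => (loc n).1.aemeasurable]
  simp only [fun n => (loc n).2]
  rw [← lintegral_iUnion hAm hAd, ← lintegral_indicator (MeasurableSet.iUnion hAm)]
  refine lintegral_congr fun x => ?_
  by_cases hx : x ∈ ⋃ n, A n
  · rw [indicator_of_mem hx]
  · rw [indicator_of_notMem hx]
    have : ⟪gradient w x, F.n⟫ = 0 := by
      by_contra h; exact hx (hAc h)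
    simp [this]

end Vale.Agent.P218UF
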