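import Vale.Agent.P218UF.Flow
import Vale.Agent.P218UF.Proj
import Mathlib.Analysis.SpecialFunctions.SmoothTransition

/-! Following a sheet of the level set above a horizontal line. -/

open MeasureTheory Set Filter Topology Metric
open scoped ENNReal NNReal RealInnerProductSpace

namespace Vale.Agent.P218UF

/-- a level set with a `C¹` field which is a multiple of the unit normal on it -/
structure Dat where
  w : E3 → ℝ
  N : E3 → E3
  hw : ContDiff ℝ 2 w
  h1 : ∀ x, w x = 0 → ‖gradient w x‖ = 1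
  hN : ContDiff ℝ 1 N
  hb : ∀ x, w x = 0 → ∃ β : ℝ, 0 ≤ β ∧ β ≤ 1 ∧ N x = β • gradient w x

lemma contDiff_grad {w : E3 → ℝ} (hw : ContDiff ℝ 2 w) : ContDiff ℝ 1 (gradient w) :=
  (InnerProductSpace.toDual ℝ E3).symm.contDiff.comp (hw.fderiv_right (by norm_num))

namespace Dat

variable (S : Dat) (F : Frame)

lemma hw1 : ContDiff ℝ 1 S.w := S.hw.of_le (by norm_num)

/-- vertical component of the gradient -/
noncomputable def u (x : E3) : ℝ := ⟪gradient S.w x, F.n⟫

/-- horizontal component of the gradient -/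
noncomputable def a (x : E3) : ℝ := ⟪gradient S.w x, F.e⟫

lemma cu : ContDiff ℝ 1 (S.u F) := (contDiff_grad S.hw).inner ℝ contDiff_const
lemma ca : ContDiff ℝ 1 (S.a F) := (contDiff_grad S.hw).inner ℝ contDiff_const

/-- the slope of the level set in direction `e` -/
noncomputable def sl (x : E3) : ℝ :=
  max (-2) (min 2 (-(S.a F x * S.u F x) / (S.u F x ^ 2 + expNegInvGlue (1 / 4 - S.u F x ^ 2))))

lemma abs_sl (x : E3) : |S.sl F x| ≤ 2 :=
  abs_le.2 ⟨le_max_left _ _, max_le (by norm_num) (min_le_left _ _)⟩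

lemma sl_mul {x : E3} (h : 1 / 2 ≤ |S.u F x|) (h2 : |S.a F x| ≤ 2 * |S.u F x|) :
    S.sl F x * S.u F x = -S.a F x := by
  have hu : S.u F x ≠ 0 := fun h0 => by rw [h0] at h; norm_num at h
  have h4 : 1 / 4 ≤ S.u F x ^ 2 := by rw [← sq_abs]; nlinarith
  have e : -(S.a F x * S.u F x) / (S.u F x ^ 2 + expNegInvGlue (1 / 4 - S.u F x ^ 2))
      = -S.a F x / S.u F x := by
    rw [expNegInvGlue.zero_of_nonpos (by linarith)]; field_simp; ring
  have b : |-S.a F x / S.u F x| ≤ 2 := by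
    rw [abs_div, abs_neg, div_le_iff₀ (abs_pos.2 hu)]; exact h2
  rw [sl, e, min_eq_right (abs_le.1 b).2, max_eq_right (abs_le.1 b).1]
  field_simp

lemma sl_lip : LocallyLipschitz (S.sl F) := by
  refine LocallyLipschitz.const_max (LocallyLipschitz.const_min (ContDiff.locallyLipschitz (𝕂 := ℝ) ?_) _) _
  refine ((S.ca F).mul (S.cu F)).neg.div (((S.cu F).pow 2).add
    (expNegInvGlue.contDiff.comp (contDiff_const.sub ((S.cu F).pow 2)))) fun x => ?_
  rcases eq_or_ne (S.u F x) 0 with h | h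
  · rw [h]
    have := expNegInvGlue.pos_of_pos (x := 1 / 4 - (0 : ℝ) ^ 2) (by norm_num)
    positivity
  · have := expNegInvGlue.nonneg (1 / 4 - S.u F x ^ 2)
    positivity

/-- the field tangent to the level set which projects to `e` -/
noncomputable def vf (x : E3) : E3 := F.e + S.sl F x • F.n

lemma vf_lip : LocallyLipschitz (S.vf F) :=
  (ContDiff.locallyLipschitz (𝕂 := ℝ) (f := fun t : ℝ => F.e + t • F.n)
    (contDiff_const.add (contDiff_id.smul contDiff_const))).comp (S.sl_lip F)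

lemma norm_vf (x : E3) : ‖S.vf F x‖ ≤ 3 := by
  refine (norm_add_le _ _).trans ?_
  rw [norm_smul, F.he, F.hn, Real.norm_eq_abs]
  linarith [S.abs_sl F x]

lemma exists_cv : ∃ c : E3 → ℝ → E3, ∀ y, c y ⟪y, F.e⟫ = y ∧
    ∀ s, HasDerivAt (c y) (S.vf F (c y s)) s := by
  obtain ⟨Φ, hΦ⟩ := exists_flow (S.vf_lip F) (S.norm_vf F)
  refine ⟨fun y s => Φ y (s - ⟪y, F.e⟫), fun y => ⟨by simp [(hΦ y).1], fun s => ?_⟩⟩
  exact ((hΦ y).2 (s - ⟪y, F.e⟫)).comp_sub_const s _

/-- the integral curve through `y`, parametrised by the coordinate along `e` -/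
noncomputable def cv : E3 → ℝ → E3 := (S.exists_cv F).choose

lemma cv_self (y : E3) : S.cv F y ⟪y, F.e⟫ = y := ((S.exists_cv F).choose_spec y).1

lemma cv_deriv (y : E3) (s : ℝ) : HasDerivAt (S.cv F y) (S.vf F (S.cv F y s)) s :=
  ((S.exists_cv F).choose_spec y).2 s

lemma cv_cont (y : E3) : Continuous (S.cv F y) :=
  continuous_iff_continuousAt.2 fun s => (S.cv_deriv F y s).continuousAt

lemma cv_uniq {y y' : E3} {s : ℝ} (h : S.cv F y s = S.cv F y' s) : S.cv F y = S.cv F y' :=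
  unique_univ (S.vf_lip F) (S.cv_deriv F y) (S.cv_deriv F y') h

lemma deriv_inner (y v : E3) (s : ℝ) :
    HasDerivAt (fun s => ⟪S.cv F y s, v⟫) ⟪S.vf F (S.cv F y s), v⟫ s := by
  simpa using (S.cv_deriv F y s).inner ℝ (hasDerivAt_const s v)

lemma cv_e (y : E3) (s : ℝ) : ⟪S.cv F y s, F.e⟫ = s := by
  have h : ∀ s, HasDerivAt (fun s => ⟪S.cv F y s, F.e⟫ - s) 0 s := fun s => by
    refine ((S.deriv_inner F y F.e s).sub (hasDerivAt_id s)).congr_deriv ?_
    simp [vf, inner_add_left, real_inner_smul_left, F.he, F.ne]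
  have := is_const_of_deriv_eq_zero (fun s => (h s).differentiableAt) (fun s => (h s).deriv) s
    ⟪y, F.e⟫
  rw [S.cv_self] at this
  linarith

lemma cv_f (y : E3) (s : ℝ) : ⟪S.cv F y s, F.f⟫ = ⟪y, F.f⟫ := by
  have h : ∀ s, HasDerivAt (fun s => ⟪S.cv F y s, F.f⟫) 0 s := fun s => by
    simpa [vf, inner_add_left, real_inner_smul_left, F.ef, F.nf] using S.deriv_inner F y F.f s
  have := is_const_of_deriv_eq_zero (fun s => (h s).differentiableAt) (fun s => (h s).deriv) s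
    ⟪y, F.e⟫
  rwa [S.cv_self] at this

/-- the height along the curve -/
noncomputable def ht (y : E3) (s : ℝ) : ℝ := ⟪S.cv F y s, F.n⟫

lemma ht_deriv (y : E3) (s : ℝ) : HasDerivAt (S.ht F y) (S.sl F (S.cv F y s)) s := by
  refine (S.deriv_inner F y F.n s).congr_deriv ?_
  simp [vf, inner_add_left, real_inner_smul_left, F.hn, F.en]

lemma ht_self (y : E3) : S.ht F y ⟪y, F.e⟫ = ⟪y, F.n⟫ := by rw [ht, S.cv_self]

lemma cv_eq (y : E3) (s : ℝ) : S.cv F y s = F.pt (s, ⟪y, F.f⟫) (S.ht F y s) :=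
  F.ext_coord (by simp [S.cv_e]) (by simp [S.cv_f]) (by simp [ht])

lemma ht_drift {y : E3} {R m s s' : ℝ} (h : ∀ t ∈ Icc (-R) R, |S.sl F (S.cv F y t)| ≤ m)
    (hs : s ∈ Icc (-R) R) (hs' : s' ∈ Icc (-R) R) : |S.ht F y s - S.ht F y s'| ≤ m * |s - s'| :=
  (convex_Icc (-R) R).norm_image_sub_le_of_norm_hasDerivWithin_le
    (fun t _ => (S.ht_deriv F y t).hasDerivWithinAt) h hs' hs

lemma cv_inj {y y' : E3} {s : ℝ} (h : S.cv F y s = S.cv F y' s) (he : ⟪y, F.e⟫ = ⟪y', F.e⟫) :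
    y = y' := by
  rw [← S.cv_self F y, S.cv_uniq F h, he, S.cv_self]

/-- the density of the variation of `N` -/
noncomputable def dn (R : ℝ) : E3 → ℝ≥0∞ :=
  ({x | 1 / 2 ≤ |S.u F x|} ∩ ball 0 (8 * R)).indicator fun x => 3 * ‖fderiv ℝ S.N x‖ₑ

lemma meas_dn (R : ℝ) : Measurable (S.dn F R) :=
  (((S.hN.continuous_fderiv one_ne_zero).enorm.measurable).const_mul _).indicator
    ((isClosed_le continuous_const (S.cu F).continuous.abs).measurableSet.inter measurableSet_ball)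

lemma mz : MeasurableSet {x | S.w x = 0} :=
  (isClosed_eq S.hw.continuous continuous_const).measurableSet

/-- the variation of `N` along the curve through `y` -/
noncomputable def J (R : ℝ) (y : E3) : ℝ≥0∞ :=
  ∫⁻ s in Icc (-R) R, {x | S.w x = 0}.indicator (S.dn F R) (S.cv F y s)

/-- the variation of `N` above a whole line -/
noncomputable def row (R σ : ℝ) : ℝ≥0∞ := ∫⁻ s, fs F S.w (S.dn F R) (s, σ)

lemma sum_J (R : ℝ) (ξ : ℝ × ℝ) : ∑' t, S.J F R (F.pt ξ t) ≤ S.row F R ξ.2 := by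
  rw [ENNReal.tsum_eq_iSup_sum]
  refine iSup_le fun T => ?_
  simp only [J]
  rw [← lintegral_finsetSum (f := fun t s => {x | S.w x = 0}.indicator (S.dn F R)
    (S.cv F (F.pt ξ t) s)) _ fun t _ =>
    ((S.meas_dn F R).indicator S.mz).comp (S.cv_cont F _).measurable]
  refine (setLIntegral_le_lintegral _ _).trans (lintegral_mono fun s => ?_)
  refine (ENNReal.sum_le_tsum T).trans ?_
  have hi : Function.Injective fun t => S.ht F (F.pt ξ t) s := fun t t' h => by
    have := S.cv_inj F (y := F.pt ξ t) (y' := F.pt ξ t') (s := s)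
      (by rw [S.cv_eq, S.cv_eq]; simp only [F.pt_f]; rw [show S.ht F _ s = _ from h]) (by simp)
    simpa using congrArg (fun x => ⟪x, F.n⟫) this
  refine le_trans (le_of_eq (tsum_congr fun t => ?_)) (ENNReal.tsum_comp_le_tsum_of_injective hi
    fun t => {x | S.w x = 0}.indicator (S.dn F R) (F.pt (s, ξ.2) t))
  rw [S.cv_eq, F.pt_f]

lemma abs_u_le {x : E3} (hx : S.w x = 0) : |S.u F x| ≤ 1 := S.h1 x hx ▸ abs_inner_le F.hn

lemma abs_a_le {x : E3} (hx : S.w x = 0) : |S.a F x| ≤ 1 := S.h1 x hx ▸ abs_inner_le F.he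

lemma int_row (R : ℝ) : Measurable (S.row F R) ∧
    ∫⁻ σ, S.row F R σ ≤ 3 * ∫⁻ x in ball 0 (8 * R), ‖fderiv ℝ S.N x‖ₑ ∂ar S.w := by
  obtain ⟨hm, he⟩ := lintegral_fs F S.hw1 S.h1 (S.meas_dn F R) fun x _ hx h0 => by
    have : 1 / 2 ≤ |S.u F x| := (mem_of_indicator_ne_zero hx).1
    rw [u, h0] at this; norm_num at this
  refine ⟨hm.lintegral_prod_left', ?_⟩
  have e : ∫⁻ σ, S.row F R σ = ∫⁻ s, fs F S.w (S.dn F R) s :=
    (lintegral_prod_symm' _ hm).symm
  rw [e, he, ← lintegral_const_mul' _ _ (by norm_num), ← lintegral_indicator measurableSet_ball]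
  refine setLIntegral_mono' S.mz fun x hx => ?_
  refine (mul_le_mul_right (ENNReal.ofReal_le_one.2 (S.abs_u_le F hx)) _).trans ?_
  rw [mul_one]
  exact indicator_le_indicator_of_subset inter_subset_right (fun _ => zero_le) _

lemma abs_N_le {x : E3} (hx : S.w x = 0) : |⟪S.N x, F.n⟫| ≤ |S.u F x| := by
  obtain ⟨β, h0, h1, h⟩ := S.hb x hx
  rw [h, real_inner_smul_left, abs_mul, abs_of_nonneg h0]
  exact mul_le_of_le_one_left (abs_nonneg _) h1

lemma slope {x : E3} (hx : S.w x = 0) (h : 1 / 2 ≤ |⟪S.N x, F.n⟫|) :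
    S.sl F x * ⟪S.N x, F.n⟫ = -⟪S.N x, F.e⟫ := by
  have h' := h.trans (S.abs_N_le F hx)
  have := S.sl_mul F h' ((S.abs_a_le F hx).trans (by linarith))
  obtain ⟨β, -, -, hβ⟩ := S.hb x hx
  rw [hβ, real_inner_smul_left, real_inner_smul_left]
  simp only [u, a] at this
  linear_combination β * this

/-- **Following a sheet.** -/
theorem go {R η : ℝ} {y : E3} (hR : 0 < R) (hη : 0 ≤ η) (he : |⟪y, F.e⟫| ≤ R) (hf : |⟪y, F.f⟫| ≤ R)
    (hn : |⟪y, F.n⟫| ≤ R) (hy : S.w y = 0) (hJ : S.J F R y ≤ ENNReal.ofReal η)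
    (hN : 1 / 2 + η < |⟪S.N y, F.n⟫|) :
    ∀ s ∈ Icc (-R) R, S.w (S.cv F y s) = 0 ∧ ‖S.N (S.cv F y s) - S.N y‖ ≤ η := by
  set G : Set E3 := {x | 1 / 2 < |S.u F x|} ∩ {x | |S.a F x| < 2 * |S.u F x|} with hG
  have hGo : IsOpen G := (isOpen_lt continuous_const (S.cu F).continuous.abs).inter
    (isOpen_lt (S.ca F).continuous.abs (continuous_const.mul (S.cu F).continuous.abs))
  have hV : IsClosed {x | 1 / 2 ≤ |S.u F x|} :=
    isClosed_le continuous_const (S.cu F).continuous.abs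
  have htan : ∀ x ∈ G, fderiv ℝ S.w x (S.vf F x) = 0 := fun x hx => by
    have := S.sl_mul F hx.1.le hx.2.le
    rw [← inner_grad, vf, inner_add_right, real_inner_smul_right]
    simp only [u, a] at this
    linarith
  have hin : ∀ x, S.w x = 0 → ‖S.N x - S.N y‖ ≤ η → x ∈ G := fun x hx h => by
    have a1 := (abs_inner_le (x := S.N x - S.N y) F.hn).trans h
    rw [inner_sub_left] at a1
    have a2 := abs_sub_abs_le_abs_sub ⟪S.N y, F.n⟫ ⟪S.N x, F.n⟫
    rw [abs_sub_comm] at a2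
    have a3 := S.abs_N_le F hx
    have a4 := S.abs_a_le F hx
    exact ⟨show 1 / 2 < |S.u F x| by linarith, show |S.a F x| < 2 * |S.u F x| by linarith⟩
  have hs₀ : ⟪y, F.e⟫ ∈ Icc (-R) R := abs_le.1 he
  have hD : ∀ t ∈ Icc (-R) R, S.w (S.cv F y t) = 0 → S.cv F y t ∈ {x | 1 / 2 ≤ |S.u F x|} →
      ENNReal.ofReal (3 * ‖fderiv ℝ S.N (S.cv F y t)‖) ≤
        {x | S.w x = 0}.indicator (S.dn F R) (S.cv F y t) := fun t ht h0 hV' => by
    have b1 := F.norm_le (S.cv F y t)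
    have b2 := S.ht_drift F (y := y) (fun t _ => S.abs_sl F _) ht hs₀
    rw [S.cv_e, S.cv_f] at b1
    rw [S.ht_self] at b2
    have b3 := abs_sub_abs_le_abs_sub (S.ht F y t) ⟪y, F.n⟫
    have b4 := abs_sub t ⟪y, F.e⟫
    have b5 : |t| ≤ R := abs_le.2 ht
    have b6 : ‖S.cv F y t‖ < 8 * R := by rw [Dat.ht] at b2 b3; linarith
    rw [indicator_of_mem (show S.cv F y t ∈ {x | S.w x = 0} from h0), dn,
      indicator_of_mem (mem_inter hV' (mem_ball_zero_iff.2 b6)),
      ENNReal.ofReal_mul (by norm_num), ofReal_norm]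
    simp
  have hvc : Continuous fun t => S.vf F (S.cv F y t) := (S.vf_lip F).continuous.comp (S.cv_cont F y)
  have hGV : G ⊆ {x | 1 / 2 ≤ |S.u F x|} := fun x hx =>
    le_of_lt (show 1 / 2 < |S.u F x| from hx.1)
  intro s hs
  rcases le_total ⟪y, F.e⟫ s with h | h
  · have := stay S.hw1 S.hN (S.cv_deriv F y) hvc (fun t => S.norm_vf F _) hGo hV
      (fun t ht => htan _ ht) (a := ⟪y, F.e⟫) (b := R) hη (by rwa [S.cv_self])
      hGV (by rwa [S.cv_self])
      (fun t ht => hD t ⟨hs₀.1.trans ht.1, ht.2⟩)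
      ((lintegral_mono_set (Icc_subset_Icc_left hs₀.1)).trans hJ) s ⟨h, hs.2⟩
    rwa [S.cv_self] at this
  · have hd : ∀ t, HasDerivAt (fun t => S.cv F y (-t)) (-S.vf F (S.cv F y (-t))) t := fun t => by
      refine ((S.cv_deriv F y (-t)).scomp t (hasDerivAt_neg t)).congr_deriv ?_
      simp
    have := stay S.hw1 S.hN hd (hvc.comp continuous_neg).neg
      (fun t => by rw [norm_neg]; exact S.norm_vf F _) hGo hV
      (fun t ht => by rw [map_neg, htan _ ht, neg_zero]) (a := -⟪y, F.e⟫) (b := R) hη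
      (by rwa [neg_neg, S.cv_self]) hGV (by rwa [neg_neg, S.cv_self])
      (fun t ht => hD (-t) ⟨by linarith [ht.2], by linarith [ht.1, hs₀.2]⟩)
      (le_trans ?_ hJ) (-s) ⟨by linarith, by linarith [hs.1]⟩
    · rwa [neg_neg, neg_neg, S.cv_self] at this
    · refine (lintegral_mono_set (Icc_subset_Icc_left (neg_le_neg hs₀.2))).trans ?_
      rw [J, ← lintegral_indicator measurableSet_Icc, ← lintegral_indicator measurableSet_Icc,
        ← lintegral_neg_eq_self]
      refine le_of_eq (lintegral_congr fun t => ?_)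
      by_cases ht : t ∈ Icc (-R) R
      · rw [indicator_of_mem ht, indicator_of_mem (show -t ∈ Icc (-R) R from
          ⟨by linarith [ht.2], by linarith [ht.1]⟩), neg_neg]
      · rw [indicator_of_notMem ht, indicator_of_notMem fun h : -t ∈ Icc (-R) R =>
          ht ⟨by linarith [h.2], by linarith [h.1]⟩]

end Dat

end Vale.Agent.P218UF
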