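import Vale.Agent.P218UF.Core
import Vale.Agent.P218UM.Basic
import Vale.Agent.P218.H63.Geom
import Mathlib.Analysis.Calculus.BumpFunction.InnerProduct

/-! The flatness lemma. -/

open MeasureTheory Set Filter Topology Metric
open scoped ENNReal NNReal RealInnerProductSpace Pointwise

namespace Vale.Agent.P218UF

open Vale.Agent.P218UA (AR NearPl IsTest pl IsSurf FLStmt hs)
open Vale.Agent.P218.H63 (hessSq hess_symm)

lemma int_plane (F : Frame) (t : ℝ) {Φ : E3 → ℝ≥0∞} (hΦ : Measurable Φ) :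
    ∫⁻ ξ, Φ (F.pt ξ t) = ∫⁻ x, Φ x ∂(μHE[2] : Measure E3).restrict {z | ⟪z, F.n⟫ = t} := by
  have h := (lintegral_fs F (w := fun z => ⟪z, F.n⟫ - t)
    ((contDiff_id.inner ℝ contDiff_const).sub contDiff_const)
    (fun x _ => by rw [P218UM.gradient_inner_sub, F.hn]) hΦ
    fun x _ _ => by rw [P218UM.gradient_inner_sub, F.nn]; exact one_ne_zero).2
  simp only [P218UM.gradient_inner_sub, F.nn, abs_one, ENNReal.ofReal_one, mul_one, ar,
    sub_eq_zero] at h
  rw [← h]
  refine lintegral_congr fun ξ => ?_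
  rw [fs, tsum_eq_single t, indicator_of_mem (by simp)]
  exact fun t' ht' => indicator_of_notMem (by simpa [sub_eq_zero] using ht') _

lemma tst {L : ℝ} {ψ : E3 → ℝ} (hc : Continuous ψ) (h1 : ∀ x, ψ x ≤ 1)
    (hl : ∀ x x', ψ x ≤ ψ x' + ‖x - x'‖) (h0 : ∀ x, L ≤ ‖x‖ → ψ x = 0) :
    Tst L fun x => ENNReal.ofReal (ψ x) :=
  ⟨hc.measurable.ennreal_ofReal, fun x => ENNReal.ofReal_le_one.2 (h1 x),
    fun x x' => (ENNReal.ofReal_le_ofReal (hl x x')).trans ENNReal.ofReal_add_le,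
    fun x hx => mem_ball_zero_iff.2 (not_le.1 fun h => hx (by rw [h0 x h]; simp))⟩

lemma abs_sub_le_of_tst {L δ : ℝ} (hδ : 0 ≤ δ) {μ ν : Measure E3} (hμ : μ (ball 0 L) ≠ ∞)
    (h : ∀ Φ, Tst L Φ → ∫⁻ x, Φ x ∂μ ≤ ∫⁻ x, Φ x ∂ν + ENNReal.ofReal δ ∧
      ∫⁻ x, Φ x ∂ν ≤ ∫⁻ x, Φ x ∂μ + ENNReal.ofReal δ) {φ : E3 → ℝ} (hφ : IsTest L φ) :
    |∫ x, φ x ∂μ - ∫ x, φ x ∂ν| ≤ 2 * δ := by
  have hc := hφ.smooth.continuous
  have hl : ∀ x x', |φ x - φ x'| ≤ ‖x - x'‖ := fun x x' => by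
    simpa using convex_univ.norm_image_sub_le_of_norm_fderiv_le (𝕜 := ℝ) (f := φ)
      (fun z _ => hφ.smooth.differentiable one_ne_zero z) (fun z _ => hφ.deriv_le z)
      (mem_univ x') (mem_univ x)
  have t1 := tst hc (fun x => (abs_le.1 (hφ.le_one x)).2)
    (fun x x' => by linarith [(abs_le.1 (hl x x')).2]) hφ.supp
  have t2 := tst (ψ := fun x => -φ x) hc.neg (fun x => by linarith [(abs_le.1 (hφ.le_one x)).1])
    (fun x x' => by linarith [(abs_le.1 (hl x x')).1]) fun x hx => by rw [hφ.supp x hx, neg_zero]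
  have t3 := tst (ψ := fun x => |φ x|) hc.abs hφ.le_one
    (fun x x' => by linarith [abs_sub_abs_le_abs_sub (φ x) (φ x'), hl x x'])
    fun x hx => by rw [hφ.supp x hx, abs_zero]
  have fin : ∀ Φ, Tst L Φ → ∫⁻ x, Φ x ∂μ ≠ ∞ ∧ ∫⁻ x, Φ x ∂ν ≠ ∞ := fun Φ hΦ => by
    have : ∫⁻ x, Φ x ∂μ ≠ ∞ := by
      refine ne_top_of_le_ne_top hμ ?_
      rw [← lintegral_indicator_one measurableSet_ball]
      refine lintegral_mono fun x => ?_
      by_cases h0 : Φ x = 0
      · rw [h0]; exact zero_le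
      · rw [indicator_of_mem (hΦ.supp x h0)]; exact hΦ.le_one x
    exact ⟨this, ne_top_of_le_ne_top (ENNReal.add_ne_top.2 ⟨this, ENNReal.ofReal_ne_top⟩) (h Φ hΦ).2⟩
  have cl : ∀ Φ, Tst L Φ → |(∫⁻ x, Φ x ∂μ).toReal - (∫⁻ x, Φ x ∂ν).toReal| ≤ δ := fun Φ hΦ => by
    obtain ⟨a, b⟩ := fin Φ hΦ
    have c := ENNReal.toReal_mono (ENNReal.add_ne_top.2 ⟨b, ENNReal.ofReal_ne_top⟩) (h Φ hΦ).1
    have d := ENNReal.toReal_mono (ENNReal.add_ne_top.2 ⟨a, ENNReal.ofReal_ne_top⟩) (h Φ hΦ).2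
    rw [ENNReal.toReal_add b ENNReal.ofReal_ne_top, ENNReal.toReal_ofReal hδ] at c
    rw [ENNReal.toReal_add a ENNReal.ofReal_ne_top, ENNReal.toReal_ofReal hδ] at d
    exact abs_le.2 ⟨by linarith, by linarith⟩
  have i1 : Integrable φ μ := ⟨hc.aestronglyMeasurable,
    (hasFiniteIntegral_iff_norm φ).2 (fin _ t3).1.lt_top⟩
  have i2 : Integrable φ ν := ⟨hc.aestronglyMeasurable,
    (hasFiniteIntegral_iff_norm φ).2 (fin _ t3).2.lt_top⟩
  rw [integral_eq_lintegral_pos_part_sub_lintegral_neg_part i1,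
    integral_eq_lintegral_pos_part_sub_lintegral_neg_part i2]
  have a := abs_le.1 (cl _ t1)
  have b := abs_le.1 (cl _ t2)
  exact abs_le.2 ⟨by linarith [a.1, b.2], by linarith [a.2, b.1]⟩

lemma exists_cut : ∃ C : ℝ, 0 < C ∧ ∀ (z : E3) (κ : ℝ), 0 < κ → ∃ β : E3 → ℝ, ContDiff ℝ 1 β ∧
    (∀ x, 0 ≤ β x ∧ β x ≤ 1) ∧ (∀ x ∈ ball z κ, β x = 0) ∧ (∀ x, ‖fderiv ℝ β x‖ ≤ C / κ) ∧
    ∀ x ∉ closedBall z (2 * κ), β x = 1 ∧ fderiv ℝ β x = 0 := by
  let b : ContDiffBump (0 : E3) := ⟨1, 2, one_pos, one_lt_two⟩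
  have hb : ContDiff ℝ 1 b := b.contDiff
  obtain ⟨C, hC⟩ := (hb.continuous_fderiv one_ne_zero).bounded_above_of_compact_support
    (b.hasCompactSupport.fderiv ℝ)
  refine ⟨C + 1, by linarith [(norm_nonneg _).trans (hC 0)], fun z κ hκ =>
    ⟨fun x => 1 - b (κ⁻¹ • (x - z)), contDiff_const.sub (hb.comp (by fun_prop)),
      fun x => ⟨by linarith [b.le_one (x := κ⁻¹ • (x - z))],
        by linarith [b.nonneg (x := κ⁻¹ • (x - z))]⟩, fun x hx => ?_, ?_⟩⟩
  · beta_reduce
    rw [b.one_of_mem_closedBall, sub_self]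
    rw [mem_closedBall_zero_iff, norm_smul, norm_inv, Real.norm_of_nonneg hκ.le,
      inv_mul_le_iff₀ hκ]
    exact (mem_ball_iff_norm.1 hx).le.trans (mul_one κ).ge
  have hd : ∀ x, fderiv ℝ (fun x => 1 - b (κ⁻¹ • (x - z))) x =
      -(κ⁻¹ • fderiv ℝ b (κ⁻¹ • (x - z))) := fun x => by
    have := (((hb.differentiable one_ne_zero) (κ⁻¹ • (x - z))).hasFDerivAt.comp x
      (((hasFDerivAt_id x).sub_const z).const_smul κ⁻¹)).const_sub 1
    refine this.fderiv.trans ?_
    ext v; simp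
  refine ⟨fun x => ?_, fun x hx => ?_⟩
  · rw [hd, norm_neg, norm_smul, norm_inv, Real.norm_of_nonneg hκ.le, div_eq_inv_mul]
    gcongr
    linarith [hC (κ⁻¹ • (x - z))]
  · have : κ⁻¹ • (x - z) ∉ tsupport b := by
      rw [b.tsupport_eq, mem_closedBall_zero_iff, norm_smul, norm_inv, Real.norm_of_nonneg hκ.le,
        inv_mul_le_iff₀ hκ, mul_comm]
      rwa [mem_closedBall_iff_norm] at hx
    exact ⟨by beta_reduce; rw [image_eq_zero_of_notMem_tsupport this, sub_zero],
      by rw [hd, fderiv_of_notMem_tsupport ℝ this, smul_zero, neg_zero]⟩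

/-- the flatness lemma at unit scale, with the number of planes and the tilt estimate -/
theorem unit_scale {A L δ : ℝ} (hA : 0 ≤ A) (hL : 1 ≤ L) (hδ : 0 < δ) :
    ∃ ε > 0, ∃ κ > 0, ∃ L' > 0, ∀ w : E3 → ℝ, ContDiff ℝ 2 w →
      (∀ x, w x = 0 → ‖gradient w x‖ = 1) → AR (ar w) A → ∀ z : E3,
      ∫⁻ x in ball 0 L' \ ball z κ, ENNReal.ofReal (‖hs w x‖ ^ 2) ∂ar w ≤ ENNReal.ofReal ε →
      ∃ (n : E3) (k : ℕ) (h : Fin k → ℝ), ‖n‖ = 1 ∧ (k : ℝ) ≤ A * (L + 4) ^ 2 + 1 ∧
        ar w (ball 0 L ∩ {x | δ < om (gradient w x) n}) ≤ ENNReal.ofReal δ ∧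
        ∀ φ, IsTest L φ → |∫ y, φ y ∂ar w - ∫ y, φ y ∂pl n h| ≤ δ := by
  obtain ⟨L', ε₀, hL', hε₀, H⟩ := core (M := A * (L + 4) ^ 2) (δ := δ / 2) (by positivity) hL
    (by positivity)
  obtain ⟨C, hC, hcut⟩ := exists_cut
  set ε := min ε₀ (δ / 2) with hε
  have hε' : 0 < ε := by positivity
  set l := ε / 3 / (A * L' ^ 2 + 1) with hl
  have hl0 : 0 < l := by positivity
  set κ := min 1 (ε / 3 / (4 * A * (C + 1) + 1)) with hκ
  have hκ0 : 0 < κ := by positivity
  have k1 : κ ≤ 1 := min_le_left _ _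
  have k2 : κ * (4 * A * (C + 1) + 1) ≤ ε / 3 := (le_div_iff₀ (by positivity)).1 (min_le_right _ _)
  refine ⟨ε / 3 * l, by positivity, κ, hκ0, L', hL', fun w hw h1 hAR z hE => ?_⟩
  obtain ⟨β, b1, b2, b3, b4, b5⟩ := hcut z κ hκ0
  have hg := contDiff_grad hw
  let S : Dat := ⟨w, fun x => β x • gradient w x, hw, h1, b1.smul hg,
    fun x _ => ⟨β x, (b2 x).1, (b2 x).2, rfl⟩⟩
  have hbl : ∀ ρ, 0 < ρ → ar w (ball 0 ρ) ≤ ENNReal.ofReal (A * ρ ^ 2) := fun ρ hρ =>
    (measure_mono ball_subset_closedBall).trans (hAR 0 ρ hρ)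
  have hκb := hAR z (2 * κ) (by positivity)
  have hne : ar w (ball 0 L ∩ {x | S.N x ≠ gradient S.w x}) ≤ ENNReal.ofReal ε := by
    refine (measure_mono fun x hx => ?_).trans (hκb.trans (ENNReal.ofReal_le_ofReal ?_))
    · by_contra h
      exact hx.2 (show β x • gradient w x = _ by rw [(b5 x h).1, one_smul])
    · nlinarith [mul_nonneg hA hκ0.le, mul_nonneg (mul_nonneg hA hκ0.le) hC.le]
  have hm : Measurable fun x => ENNReal.ofReal (‖hs w x‖ ^ 2) :=
    ((hg.continuous_fderiv one_ne_zero).norm.pow 2).measurable.ennreal_ofReal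
  have hD : ∫⁻ x in ball 0 L', ‖fderiv ℝ S.N x‖ₑ ∂ar S.w ≤ ENNReal.ofReal ε := by
    have hd : MeasurableSet (ball (0 : E3) L' \ ball z κ) := measurableSet_ball.diff measurableSet_ball
    have p : ∀ x, w x = 0 → (ball 0 L').indicator (fun x => ‖fderiv ℝ S.N x‖ₑ) x ≤
        (ball 0 L' \ ball z κ).indicator (fun x => ENNReal.ofReal (‖hs w x‖ ^ 2)) x
          * ENNReal.ofReal l⁻¹ + (ENNReal.ofReal l * (ball 0 L').indicator 1 x
          + ENNReal.ofReal (C / κ) * (closedBall z (2 * κ)).indicator 1 x) := fun x hx => by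
      refine indicator_apply_le' (fun hb => ?_) fun _ => zero_le
      have e : fderiv ℝ S.N x = β x • hs w x + (fderiv ℝ β x).smulRight (gradient w x) :=
        fderiv_smul (b1.differentiable one_ne_zero x) (hg.differentiable one_ne_zero x)
      rw [e, ← add_assoc, indicator_of_mem hb, Pi.one_apply, mul_one]
      refine (enorm_add_le (β x • hs w x) _).trans (add_le_add ?_ ?_)
      · by_cases hz : x ∈ ball z κ
        · rw [← ofReal_norm, norm_smul, b3 x hz]; simp
        · rw [indicator_of_mem (mem_sdiff_of_mem hb hz), ← ENNReal.ofReal_mul (sq_nonneg _),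
            ← ENNReal.ofReal_add (by positivity) hl0.le, ← ofReal_norm, norm_smul,
            Real.norm_of_nonneg (b2 x).1]
          refine ENNReal.ofReal_le_ofReal ((mul_le_of_le_one_left (norm_nonneg _) (b2 x).2).trans ?_)
          rw [← div_eq_mul_inv, div_add' _ _ _ hl0.ne', le_div_iff₀ hl0]
          nlinarith [sq_nonneg (‖hs w x‖ - l), mul_nonneg (norm_nonneg (hs w x)) hl0.le]
      · by_cases hz : x ∈ closedBall z (2 * κ)
        · rw [indicator_of_mem hz, Pi.one_apply, mul_one, ← ofReal_norm,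
            ContinuousLinearMap.norm_smulRight_apply, h1 x hx, mul_one]
          exact ENNReal.ofReal_le_ofReal (b4 x)
        · rw [← ofReal_norm, ContinuousLinearMap.norm_smulRight_apply, (b5 x hz).2]; simp
    rw [← lintegral_indicator measurableSet_ball]
    refine (setLIntegral_mono' S.mz p).trans ?_
    rw [lintegral_add_left ((hm.indicator hd).mul_const _), lintegral_mul_const _ (hm.indicator hd),
      lintegral_add_left ((measurable_one.indicator measurableSet_ball).const_mul _),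
      lintegral_const_mul _ (measurable_one.indicator measurableSet_ball),
      lintegral_const_mul _ (measurable_one.indicator measurableSet_closedBall),
      lintegral_indicator hd, lintegral_indicator_one measurableSet_ball,
      lintegral_indicator_one measurableSet_closedBall]
    refine (add_le_add (mul_le_mul_left hE _) (add_le_add (mul_le_mul_right (hbl L' hL') _)
      (mul_le_mul_right hκb _))).trans ?_
    rw [← ENNReal.ofReal_mul (by positivity), ← ENNReal.ofReal_mul hl0.le,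
      ← ENNReal.ofReal_mul (by positivity), ← ENNReal.ofReal_add (by positivity) (by positivity),
      ← ENNReal.ofReal_add (by positivity) (by positivity)]
    refine ENNReal.ofReal_le_ofReal ?_
    have c1 : ε / 3 * l * l⁻¹ = ε / 3 := by field_simp
    have c2 : l * (A * L' ^ 2 + 1) = ε / 3 := by rw [hl]; field_simp
    have c3 : C / κ * (A * (2 * κ) ^ 2) = κ * (4 * A * C) := by field_simp; ring
    nlinarith [mul_nonneg hA hκ0.le]
  have e0 : ENNReal.ofReal ε ≤ ENNReal.ofReal ε₀ := ENNReal.ofReal_le_ofReal (min_le_left _ _)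
  obtain ⟨F, T, hT, ht, hΦ⟩ := H S (hbl _ (by linarith)) (hD.trans e0) (hne.trans e0)
  refine ⟨F.n, T.card, fun i => T.equivFin.symm i, F.hn, hT, ?_, fun φ hφ => ?_⟩
  · have : ball 0 L ∩ {x | δ < om (gradient w x) F.n} ⊆ (ball 0 L \ S.near F (δ / 2)) ∪
        (ball 0 L ∩ {x | S.N x ≠ gradient S.w x}) := fun x hx => by
      by_cases h : S.N x = gradient S.w x
      · refine Or.inl ⟨hx.1, fun h' => ?_⟩
        have a1 : om (S.N x) F.n ≤ δ / 2 := h'
        have a2 : δ < om (gradient S.w x) F.n := hx.2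
        rw [h] at a1; linarith
      · exact Or.inr ⟨hx.1, h⟩
    refine (measure_mono this).trans ((measure_union_le _ _).trans ((add_le_add ht hne).trans ?_))
    rw [← ENNReal.ofReal_add (by positivity) hε'.le]
    exact ENNReal.ofReal_le_ofReal (by linarith [min_le_right ε₀ (δ / 2)])
  · refine (abs_sub_le_of_tst (δ := δ / 2) (by positivity)
      (ne_top_of_le_ne_top ENNReal.ofReal_ne_top (hbl L (by linarith))) (fun Φ h => ?_) hφ).trans
      (by linarith)
    have e : ∫⁻ x, Φ x ∂pl F.n (fun i => (T.equivFin.symm i : ℝ)) = ∑ t ∈ T, ∫⁻ ξ, Φ (F.pt ξ t) := by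
      rw [pl, lintegral_finsetSum_measure, ← Finset.sum_coe_sort T,
        ← T.equivFin.symm.sum_comp]
      exact Finset.sum_congr rfl fun i _ => (int_plane F _ h.meas).symm
    rw [e]
    exact hΦ Φ h

/-! ### Scaling -/

/-- the rescaled defining function -/
noncomputable def rs (w : E3 → ℝ) (z : E3) (r : ℝ) (x : E3) : ℝ := r⁻¹ * w (z + r • x)

variable {w : E3 → ℝ} {z : E3} {r : ℝ}

lemma contDiff_rs {n : WithTop ℕ∞} (hw : ContDiff ℝ n w) : ContDiff ℝ n (rs w z r) :=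
  contDiff_const.mul (hw.comp (contDiff_const.add (contDiff_id.const_smul r)))

lemma hasFDerivAt_aff (z : E3) (r : ℝ) (x : E3) :
    HasFDerivAt (fun x : E3 => z + r • x) (r • ContinuousLinearMap.id ℝ E3) x :=
  ((hasFDerivAt_id x).const_smul r).const_add z

lemma gradient_rs (hw : ContDiff ℝ 1 w) (hr : 0 < r) (x : E3) :
    gradient (rs w z r) x = gradient w (z + r • x) := by
  have := (((hw.differentiable one_ne_zero) (z + r • x)).hasFDerivAt.comp x
    (hasFDerivAt_aff z r x)).const_mul r⁻¹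
  have e : fderiv ℝ (rs w z r) x = fderiv ℝ w (z + r • x) := by
    refine this.fderiv.trans ?_
    ext v; simp [hr.ne']
  rw [gradient, gradient, e]

lemma hs_rs (hw : ContDiff ℝ 2 w) (hr : 0 < r) (x : E3) :
    hs (rs w z r) x = r • hs w (z + r • x) := by
  have := (((contDiff_grad hw).differentiable one_ne_zero) (z + r • x)).hasFDerivAt.comp x
    (hasFDerivAt_aff z r x)
  rw [hs, funext (gradient_rs (hw.of_le (by norm_num)) hr)]
  refine this.fderiv.trans ?_
  ext v; simp [hs]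

lemma aff_inv (hr : 0 < r) (y : E3) : z + r • r⁻¹ • (y - z) = y := by
  rw [smul_inv_smul₀ hr.ne']; abel

lemma ar_rs (w : E3 → ℝ) (hr : 0 < r) :
    ar (rs w z r) = ENNReal.ofReal (r⁻¹ ^ 2) • (ar w).map fun y => r⁻¹ • (y - z) := by
  have hm : Measurable fun y : E3 => r⁻¹ • (y - z) := by fun_prop
  ext s hs
  have e : (fun y => r⁻¹ • (y - z)) ⁻¹' s ∩ {x | w x = 0} =
      (fun x => z + x) '' (r • (s ∩ {x | rs w z r x = 0})) := by
    ext y; constructor
    · rintro ⟨a, b⟩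
      exact ⟨_, ⟨_, ⟨a, by simpa [rs, aff_inv hr, hr.ne'] using b⟩, rfl⟩, aff_inv hr y⟩
    · rintro ⟨_, ⟨x, ⟨a, b⟩, rfl⟩, rfl⟩
      exact ⟨by simpa [smul_smul, hr.ne'] using a, by simpa [rs, hr.ne'] using b⟩
  rw [Measure.smul_apply, Measure.map_apply hm hs, ar, ar, Measure.restrict_apply hs,
    Measure.restrict_apply (hm hs), e, (isometry_add_left z).euclideanHausdorffMeasure_image,
    Measure.euclideanHausdorffMeasure_smul₀ _ hr.ne', ENNReal.smul_def, smul_eq_mul, smul_eq_mul,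
    ← mul_assoc, ENNReal.coe_pow, ← enorm_eq_nnnorm, Real.enorm_eq_ofReal hr.le,
    ← ENNReal.ofReal_pow hr.le, ← ENNReal.ofReal_mul (by positivity), ← mul_pow,
    inv_mul_cancel₀ hr.ne']
  simp

lemma norm_sc (hr : 0 < r) (y c : E3) : ‖r⁻¹ • (y - z) - c‖ = ‖y - (z + r • c)‖ / r := by
  rw [eq_div_iff hr.ne', mul_comm, ← Real.norm_of_nonneg hr.le, ← norm_smul,
    Real.norm_of_nonneg hr.le, smul_sub, smul_inv_smul₀ hr.ne', sub_sub]

lemma pre_ball (hr : 0 < r) (c : E3) (ρ : ℝ) :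
    (fun y => r⁻¹ • (y - z)) ⁻¹' ball c ρ = ball (z + r • c) (ρ * r) := by
  ext y; simp only [mem_preimage, mem_ball_iff_norm, norm_sc hr, div_lt_iff₀ hr]

lemma pre_closedBall (hr : 0 < r) (c : E3) (ρ : ℝ) :
    (fun y => r⁻¹ • (y - z)) ⁻¹' closedBall c ρ = closedBall (z + r • c) (ρ * r) := by
  ext y; simp only [mem_preimage, mem_closedBall_iff_norm, norm_sc hr, div_le_iff₀ hr]

lemma AR_rs {A : ℝ} (hr : 0 < r) (h : AR (ar w) A) : AR (ar (rs w z r)) A := by
  intro x ρ hρ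
  rw [ar_rs w hr, Measure.smul_apply, Measure.map_apply (by fun_prop) measurableSet_closedBall,
    pre_closedBall hr, smul_eq_mul]
  refine (mul_le_mul_right (h _ _ (by positivity)) _).trans (le_of_eq ?_)
  rw [← ENNReal.ofReal_mul (by positivity)]
  congr 1
  field_simp

lemma norm_hs_sq_le (hw : ContDiff ℝ 2 w) (x : E3) : ‖hs w x‖ ^ 2 ≤ hessSq w x := by
  set b := stdOrthonormalBasis ℝ E3
  have e : hessSq w x = ∑ i, ‖hs w x (b i)‖ ^ 2 := by
    rw [hessSq, LinearMap.trace_eq_sum_inner _ b]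
    refine Finset.sum_congr rfl fun i _ => ?_
    rw [← real_inner_self_eq_norm_sq]
    exact (hess_symm hw x _ _).symm
  have h0 : 0 ≤ hessSq w x := e ▸ Finset.sum_nonneg fun _ _ => sq_nonneg _
  rw [← Real.le_sqrt (norm_nonneg _) h0]
  refine ContinuousLinearMap.opNorm_le_bound _ (Real.sqrt_nonneg _) fun v => ?_
  rw [← Real.sqrt_sq (norm_nonneg v), ← Real.sqrt_mul h0, Real.le_sqrt (norm_nonneg _)
    (by positivity), ← b.sum_sq_norm_inner_right, e, Finset.sum_mul]
  refine Finset.sum_le_sum fun i _ => ?_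
  rw [← mul_pow, show ⟪b i, hs w x v⟫ = ⟪hs w x (b i), v⟫ from (hess_symm hw x _ _).symm]
  exact pow_le_pow_left₀ (norm_nonneg _) (norm_inner_le_norm _ _) 2

lemma continuous_hessSq' (hw : ContDiff ℝ 2 w) : Continuous (hessSq w) := by
  have h := (contDiff_grad hw).continuous_fderiv one_ne_zero
  have e : hessSq w = fun x => ∑ i, ⟪stdOrthonormalBasis ℝ E3 i, fderiv ℝ (gradient w) x
      (fderiv ℝ (gradient w) x (stdOrthonormalBasis ℝ E3 i))⟫ := by
    ext x
    rw [hessSq, LinearMap.trace_eq_sum_inner _ (stdOrthonormalBasis ℝ E3)]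
    rfl
  rw [e]
  fun_prop

/-- **Flatness lemma.** -/
theorem flStmt : FLStmt := by
  intro A L δ hδ
  obtain ⟨ε, hε, κ, hκ, L', hL', H⟩ := unit_scale (le_max_right A 0) (le_max_right L 1) hδ
  refine ⟨ε, hε, κ, hκ, L', hL', fun w hw hA z z' r hr hE => ?_⟩
  have hw2 : ContDiff ℝ 2 w := hw.smooth.of_le (by norm_cast)
  have hm : Measurable fun y : E3 => r⁻¹ • (y - z) := by fun_prop
  have hA' : AR (ar w) (max A 0) := fun x ρ hρ => (hA x ρ hρ).trans
    (ENNReal.ofReal_le_ofReal (by gcongr; exact le_max_left _ _))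
  have hd : MeasurableSet (ball (0 : E3) L' \ ball (r⁻¹ • (z' - z)) κ) :=
    measurableSet_ball.diff measurableSet_ball
  obtain ⟨n, k, h, hn, -, -, hφ⟩ := H (rs w z r) (contDiff_rs hw2) (fun x hx => by
    rw [gradient_rs (hw2.of_le (by norm_num)) hr]
    exact (hw.eik _ (by simpa [rs, hr.ne'] using hx)).self_of_nhds)
    (AR_rs hr hA') (r⁻¹ • (z' - z)) (by
      have hm' : Measurable fun x => ENNReal.ofReal (‖hs (rs w z r) x‖ ^ 2) :=
        (((contDiff_grad (contDiff_rs hw2)).continuous_fderiv one_ne_zero).norm.pow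
          2).measurable.ennreal_ofReal
      rw [ar_rs w hr, Measure.restrict_smul, lintegral_smul_measure,
        setLIntegral_map hd hm' hm, preimage_sdiff, pre_ball hr, pre_ball hr, aff_inv hr, smul_zero,
        add_zero, smul_eq_mul, ← lintegral_const_mul' _ _ ENNReal.ofReal_ne_top]
      have := hA.locFin
      have hi : IntegrableOn (hessSq w) (ball z (L' * r) \ ball z' (κ * r)) (P218UA.ar w) :=
        ((continuous_hessSq' hw2).continuousOn.integrableOn_compact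
          (isCompact_closedBall z (L' * r))).mono_set (sdiff_subset.trans ball_subset_closedBall)
      refine le_trans ?_ (ENNReal.ofReal_le_ofReal hE)
      rw [ofReal_integral_eq_lintegral_ofReal hi (Eventually.of_forall fun x =>
        (sq_nonneg _).trans (norm_hs_sq_le hw2 x))]
      refine lintegral_mono fun y => ?_
      rw [← ENNReal.ofReal_mul (by positivity), hs_rs hw2 hr, aff_inv hr, norm_smul,
        Real.norm_of_nonneg hr.le, ← mul_pow, inv_mul_cancel_left₀ hr.ne']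
      exact ENNReal.ofReal_le_ofReal (norm_hs_sq_le hw2 y))
  refine ⟨n, k, h, hn, fun φ hφ' => ?_⟩
  have := hφ φ ⟨hφ'.smooth, fun x hx => hφ'.supp x ((le_max_left _ _).trans hx), hφ'.le_one,
    hφ'.deriv_le⟩
  rw [ar_rs w hr, integral_smul_measure, integral_map hm.aemeasurable
    hφ'.smooth.continuous.aestronglyMeasurable, ENNReal.toReal_ofReal (by positivity), smul_eq_mul,
    inv_pow, ← div_eq_inv_mul] at this
  exact this

end Vale.Agent.P218UF
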