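import Mathlib.Analysis.ODE.ExistUnique
import Mathlib.Analysis.Calculus.ContDiff.RCLike
import Mathlib.Analysis.Calculus.MeanValue
import Mathlib.Analysis.Calculus.ContDiff.Deriv
import Mathlib.Analysis.Normed.Module.FiniteDimension
import Mathlib.Topology.Algebra.MetricSpace.Lipschitz
import Mathlib.MeasureTheory.Integral.IntervalIntegral.ContDiff

/-! Global flows of bounded locally Lipschitz fields; staying on a level set. -/

open MeasureTheory Set Filter Topology Metric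
open scoped ENNReal NNReal

namespace Vale.Agent.P218UF

set_option linter.unusedSectionVars false

variable {E : Type*} [NormedAddCommGroup E] [NormedSpace ℝ E] [FiniteDimensional ℝ E]
  {X : E → E}

lemma unique_Ioo (hX : LocallyLipschitz X) {f g : ℝ → E} {a b t₀ : ℝ} (ht : t₀ ∈ Ioo a b)
    (hf : ∀ t ∈ Ioo a b, HasDerivAt f (X (f t)) t) (hg : ∀ t ∈ Ioo a b, HasDerivAt g (X (g t)) t)
    (h : f t₀ = g t₀) : EqOn f g (Ioo a b) := by
  intro t' ht'
  set a' := min t₀ t' with ha'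
  set b' := max t₀ t' with hb'
  obtain ⟨a₁, ha₁, ha₂⟩ := exists_between (lt_min ht.1 ht'.1 : a < a')
  obtain ⟨b₁, hb₁, hb₂⟩ := exists_between (max_lt ht.2 ht'.2 : b' < b)
  have hsub : Icc a₁ b₁ ⊆ Ioo a b := Icc_subset_Ioo ha₁ hb₂
  have hfc : ContinuousOn f (Icc a₁ b₁) := fun t ht => (hf t (hsub ht)).continuousAt.continuousWithinAt
  have hgc : ContinuousOn g (Icc a₁ b₁) := fun t ht => (hg t (hsub ht)).continuousAt.continuousWithinAt
  have hK : IsCompact (f '' Icc a₁ b₁ ∪ g '' Icc a₁ b₁) :=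
    (isCompact_Icc.image_of_continuousOn hfc).union (isCompact_Icc.image_of_continuousOn hgc)
  obtain ⟨K, hK'⟩ := (hX.locallyLipschitzOn).exists_lipschitzOnWith_of_compact hK
  have h0 : t₀ ∈ Ioo a₁ b₁ := ⟨ha₂.trans_le (min_le_left _ _), (le_max_left _ _).trans_lt hb₁⟩
  have h1 : t' ∈ Ioo a₁ b₁ := ⟨ha₂.trans_le (min_le_right _ _), (le_max_right _ _).trans_lt hb₁⟩
  exact ODE_solution_unique_of_mem_Ioo (v := fun _ => X)
    (s := fun _ => f '' Icc a₁ b₁ ∪ g '' Icc a₁ b₁) (fun _ _ => hK') h0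
    (fun t ht => ⟨hf t (hsub (Ioo_subset_Icc_self ht)), Or.inl ⟨t, Ioo_subset_Icc_self ht, rfl⟩⟩)
    (fun t ht => ⟨hg t (hsub (Ioo_subset_Icc_self ht)), Or.inr ⟨t, Ioo_subset_Icc_self ht, rfl⟩⟩)
    h h1

lemma unique_univ (hX : LocallyLipschitz X) {f g : ℝ → E} {t₀ : ℝ}
    (hf : ∀ t, HasDerivAt f (X (f t)) t) (hg : ∀ t, HasDerivAt g (X (g t)) t)
    (h : f t₀ = g t₀) : f = g := by
  ext t
  exact unique_Ioo hX (a := min t₀ t - 1) (b := max t₀ t + 1)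
    ⟨by linarith [min_le_left t₀ t], by linarith [le_max_left t₀ t]⟩ (fun t _ => hf t)
    (fun t _ => hg t) h ⟨by linarith [min_le_right t₀ t], by linarith [le_max_right t₀ t]⟩

lemma exists_Ioo (hX : LocallyLipschitz X) {K : ℝ} (hb : ∀ x, ‖X x‖ ≤ K) (x : E) (M : ℕ) :
    ∃ α : ℝ → E, α 0 = x ∧ ∀ t ∈ Ioo (-(M + 1 : ℝ)) (M + 1), HasDerivAt α (X (α t)) t := by
  have hK : 0 ≤ K := (norm_nonneg _).trans (hb x)
  have hM : (0 : ℝ) ≤ M + 1 := by positivity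
  set a : ℝ≥0 := ⟨K * (M + 1), mul_nonneg hK hM⟩ with ha
  obtain ⟨L, hL⟩ := (hX.locallyLipschitzOn).exists_lipschitzOnWith_of_compact
    (isCompact_closedBall x a)
  have hpl : IsPicardLindelof (fun _ => X) (tmin := -(M + 1 : ℝ)) (tmax := M + 1)
      ⟨0, by constructor <;> linarith⟩ x a 0 ⟨K, hK⟩ L :=
    ⟨fun _ _ => hL, fun _ _ => continuousOn_const, fun _ _ y _ => hb y, by
      simp only [sub_zero, zero_sub, neg_neg, max_self, NNReal.coe_zero]; exact le_rfl⟩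
  obtain ⟨α, h0, hα⟩ := hpl.exists_eq_forall_mem_Icc_hasDerivWithinAt₀
  exact ⟨α, h0, fun t ht => (hα t (Ioo_subset_Icc_self ht)).hasDerivAt (Icc_mem_nhds ht.1 ht.2)⟩

/-- global flow of a bounded locally Lipschitz field -/
theorem exists_flow (hX : LocallyLipschitz X) {K : ℝ} (hb : ∀ x, ‖X x‖ ≤ K) :
    ∃ Φ : E → ℝ → E, ∀ x, Φ x 0 = x ∧ ∀ t, HasDerivAt (Φ x) (X (Φ x t)) t := by
  choose α h0 hα using exists_Ioo hX hb
  have hc : ∀ x (m n : ℕ), m ≤ n → EqOn (α x m) (α x n) (Ioo (-(m + 1 : ℝ)) (m + 1)) := by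
    intro x m n hmn
    have hmn' : (m : ℝ) ≤ n := by exact_mod_cast hmn
    have hm : (0 : ℝ) ≤ m := Nat.cast_nonneg m
    exact unique_Ioo hX (t₀ := 0) ⟨by linarith, by linarith⟩ (hα x m)
      (fun t ht => hα x n t ⟨by linarith [ht.1], by linarith [ht.2]⟩) (by rw [h0, h0])
  have hmem : ∀ t : ℝ, t ∈ Ioo (-((⌈|t|⌉₊ : ℕ) + 1 : ℝ)) ((⌈|t|⌉₊ : ℕ) + 1) := fun t => by
    have h1 := Nat.le_ceil |t|
    have h2 := abs_le.1 (le_refl |t|)
    exact ⟨by linarith [h2.1], by linarith [h2.2]⟩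
  refine ⟨fun x t => α x ⌈|t|⌉₊ t, fun x => ⟨h0 x _, fun t => ?_⟩⟩
  set n := ⌈|t|⌉₊ + 1 with hn
  have hev : (fun s => α x ⌈|s|⌉₊ s) =ᶠ[𝓝 t] α x n := by
    filter_upwards [ball_mem_nhds t one_pos] with s hs
    refine hc x _ _ ?_ (hmem s)
    have h1 : |s| ≤ |t| + 1 := by
      have := abs_sub_abs_le_abs_sub s t
      rw [mem_ball, Real.dist_eq] at hs
      linarith
    calc ⌈|s|⌉₊ ≤ ⌈|t| + 1⌉₊ := Nat.ceil_mono h1
      _ = n := Nat.ceil_add_one (abs_nonneg t)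
  have hnt : t ∈ Ioo (-(n + 1 : ℝ)) (n + 1) := by
    have := hmem t
    have e : (n : ℝ) = (⌈|t|⌉₊ : ℕ) + 1 := by rw [hn]; push_cast; ring
    exact ⟨by linarith [this.1], by linarith [this.2]⟩
  have h1 := (hα x n t hnt).congr_of_eventuallyEq hev
  have h2 : α x ⌈|t|⌉₊ t = α x n t := hev.eq_of_nhds
  simpa only [h2] using h1

omit [FiniteDimensional ℝ E] in
/-- A `C¹` curve starting on the level set `{w = 0}` stays on it as long as the variation of `N`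
along it is small. -/
theorem stay {F : Type*} [NormedAddCommGroup F] [NormedSpace ℝ F] {w : E → ℝ} {N : E → F}
    (hw : ContDiff ℝ 1 w) (hN : ContDiff ℝ 1 N) {γ v : ℝ → E} (hγ : ∀ t, HasDerivAt γ (v t) t)
    (hv : Continuous v) {C : ℝ} (hvC : ∀ t, ‖v t‖ ≤ C) {G V : Set E} (hG : IsOpen G)
    (hV : IsClosed V) (htan : ∀ t, γ t ∈ G → fderiv ℝ w (γ t) (v t) = 0) {a b η : ℝ} (hη : 0 ≤ η)
    (h0 : w (γ a) = 0) (hGV : G ⊆ V)
    (hin : ∀ x, w x = 0 → ‖N x - N (γ a)‖ ≤ η → x ∈ G) {D : E → ℝ≥0∞}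
    (hD : ∀ t ∈ Icc a b, w (γ t) = 0 → γ t ∈ V → ENNReal.ofReal (C * ‖fderiv ℝ N (γ t)‖) ≤ D (γ t))
    (hJ : ∫⁻ t in Icc a b, D (γ t) ≤ ENNReal.ofReal η) :
    ∀ t ∈ Icc a b, w (γ t) = 0 ∧ ‖N (γ t) - N (γ a)‖ ≤ η := by
  have hγc : Continuous γ := continuous_iff_continuousAt.2 fun t => (hγ t).continuousAt
  have hγ1 : ContDiff ℝ 1 γ := by
    rw [contDiff_one_iff_deriv]
    refine ⟨fun t => (hγ t).differentiableAt, ?_⟩
    have : deriv γ = v := funext fun t => (hγ t).deriv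
    rwa [this]
  have hNd : ∀ t, HasDerivAt (N ∘ γ) (fderiv ℝ N (γ t) (v t)) t := fun t =>
    ((hN.differentiable one_ne_zero) (γ t)).hasFDerivAt.comp_hasDerivAt t (hγ t)
  have hwd : ∀ t, HasDerivAt (w ∘ γ) (fderiv ℝ w (γ t) (v t)) t := fun t =>
    ((hw.differentiable one_ne_zero) (γ t)).hasFDerivAt.comp_hasDerivAt t (hγ t)
  set S : Set ℝ := {t | w (γ t) = 0 ∧ γ t ∈ V} with hS
  have hSc : IsClosed S :=
    (isClosed_eq (hw.continuous.comp hγc) continuous_const).inter (hV.preimage hγc)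
  have var : ∀ t ∈ Icc a b, Icc a t ⊆ S → ‖N (γ t) - N (γ a)‖ ≤ η := by
    intro t ht hs
    have h1 := enorm_sub_le_lintegral_deriv_of_contDiffOn_Icc
      (f := N ∘ γ) (a := a) (b := t) (hN.comp hγ1).contDiffOn ht.1
    have h2 : ∫⁻ s in Icc a t, ‖deriv (N ∘ γ) s‖ₑ ≤ ∫⁻ s in Icc a t, D (γ s) := by
      refine setLIntegral_mono' measurableSet_Icc fun s hs' => ?_
      refine le_trans ?_ (hD s ⟨hs'.1, hs'.2.trans ht.2⟩ (hs hs').1 (hs hs').2)
      rw [(hNd s).deriv, ← ofReal_norm]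
      refine ENNReal.ofReal_le_ofReal (((fderiv ℝ N (γ s)).le_opNorm _).trans ?_)
      rw [mul_comm]
      exact mul_le_mul_of_nonneg_right (hvC s) (norm_nonneg _)
    have h3 : ∫⁻ s in Icc a t, D (γ s) ≤ ∫⁻ s in Icc a b, D (γ s) :=
      lintegral_mono_set (Icc_subset_Icc_right ht.2)
    have h4 := h1.trans (h2.trans (h3.trans hJ))
    rw [← ofReal_norm, ENNReal.ofReal_le_ofReal_iff hη] at h4
    exact h4
  have hall : Icc a b ⊆ S := by
    refine (hSc.inter isClosed_Icc).Icc_subset_of_forall_mem_nhdsGT_of_Icc_subset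
      ⟨h0, hGV (hin _ h0 (by simpa using hη))⟩ fun t ht hs => ?_
    have hwt : w (γ t) = 0 := (hs ⟨ht.1, le_rfl⟩).1
    have hG' : γ t ∈ G := hin _ hwt (var t (Ico_subset_Icc_self ht) hs)
    obtain ⟨ρ, hρ, hball⟩ := Metric.isOpen_iff.1 (hG.preimage hγc) t hG'
    have hz : ∀ s ∈ ball t ρ, w (γ s) = 0 := by
      intro s hs
      have := (convex_ball t ρ).is_const_of_fderivWithin_eq_zero (𝕜 := ℝ) (f := w ∘ γ)
        (fun z _ => (hwd z).differentiableAt.differentiableWithinAt) (fun z hz => by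
          rw [fderivWithin_of_isOpen isOpen_ball hz, (hwd z).hasFDerivAt.fderiv,
            htan z (hball hz)]
          simp) hs (mem_ball_self hρ)
      simpa [hwt] using this
    exact mem_nhdsWithin_of_mem_nhds
      (mem_of_superset (ball_mem_nhds t hρ) fun s hs => ⟨hz s hs, hGV (hball hs)⟩)
  exact fun t ht => ⟨(hall ht).1, var t ht ((Icc_subset_Icc_right ht.2).trans hall)⟩

end Vale.Agent.P218UF
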