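import Vale.Agent.P218UF.Cross

/-! Matching the sheets above two points of the horizontal plane. -/

open MeasureTheory Set Filter Topology Metric
open scoped ENNReal NNReal RealInnerProductSpace

namespace Vale.Agent.P218UF

/-- nonnegative test functions -/
structure Tst (L : ℝ) (Φ : E3 → ℝ≥0∞) : Prop where
  meas : Measurable Φ
  le_one : ∀ x, Φ x ≤ 1
  lip : ∀ x x', Φ x ≤ Φ x' + ENNReal.ofReal ‖x - x'‖
  supp : ∀ x, Φ x ≠ 0 → x ∈ ball (0 : E3) L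

lemma Tst.coord {L : ℝ} {Φ : E3 → ℝ≥0∞} (h : Tst L Φ) (F : Frame) {ξ : ℝ × ℝ} {t : ℝ}
    (h0 : Φ (F.pt ξ t) ≠ 0) : |ξ.1| ≤ L ∧ |ξ.2| ≤ L ∧ |t| ≤ L := by
  have hn := (mem_ball_zero_iff.1 (h.supp _ h0)).le
  have c1 := (abs_inner_le (x := F.pt ξ t) F.he).trans hn
  have c2 := (abs_inner_le (x := F.pt ξ t) F.hf).trans hn
  have c3 := (abs_inner_le (x := F.pt ξ t) F.hn).trans hn
  rw [F.pt_e] at c1
  rw [F.pt_f] at c2
  rw [F.pt_n] at c3
  exact ⟨c1, c2, c3⟩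

namespace Dat

variable (S : Dat) (F : Frame)

/-- the transport of heights from the fibre over `ξ` to the fibre over `(s, ξ.2)` -/
noncomputable def tr (ξ : ℝ × ℝ) (s t : ℝ) : ℝ := S.ht F (F.pt ξ t) s

lemma cv_pt (ξ : ℝ × ℝ) (s t : ℝ) : S.cv F (F.pt ξ t) s = F.pt (s, ξ.2) (S.tr F ξ s t) := by
  rw [S.cv_eq, F.pt_f, tr]

lemma tr_inj (ξ : ℝ × ℝ) (s : ℝ) : Function.Injective (S.tr F ξ s) := fun t t' h => by
  have := S.cv_inj F (y := F.pt ξ t) (y' := F.pt ξ t') (s := s)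
    (by rw [S.cv_pt, S.cv_pt, h]) (by simp)
  simpa using congrArg (fun x => ⟪x, F.n⟫) this

lemma nn' : ⟪F.n, F.n⟫ = 1 := F.nn

lemma abs_sl_le {x : E3} {θ : ℝ} (hx : S.w x = 0) (h : om (S.N x) F.n ≤ θ) (hθ : θ ≤ 1 / 2) :
    |S.sl F x| ≤ 2 * θ := by
  have a1 := (om_abs h F.hn).1
  have a2 := (om_abs h F.he).2
  rw [F.nn] at a1
  rw [F.ne, abs_zero, zero_add] at a2
  have a0 := congrArg abs (S.slope F hx (by linarith))
  rw [abs_mul, abs_neg] at a0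
  nlinarith [abs_nonneg (S.sl F x)]

/-- one horizontal step -/
lemma step {L R α s t m : ℝ} {ξ : ℝ × ℝ} (hL : 1 ≤ L) (hR : 3 * L ≤ R) (hα : 0 < α)
    (hαL : 40 * α * L ≤ 1) (h1 : |ξ.1| ≤ L) (h2 : |ξ.2| ≤ L) (h3 : |t| ≤ L + 2) (hs : |s| ≤ L)
    (hw : S.w (F.pt ξ t) = 0) (ho : om (S.N (F.pt ξ t)) F.n ≤ m) (hm : m ≤ 4 * α)
    (hJ : S.J F R (F.pt ξ t) ≤ ENNReal.ofReal α) :
    S.w (F.pt (s, ξ.2) (S.tr F ξ s t)) = 0 ∧
      om (S.N (F.pt (s, ξ.2) (S.tr F ξ s t))) F.n ≤ m + α ∧ |S.tr F ξ s t - t| ≤ 20 * α * L := by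
  have hα' : 40 * α ≤ 1 := by nlinarith
  have a1 := (om_abs ho F.hn).1
  rw [F.nn] at a1
  have g := S.go F (R := R) (y := F.pt ξ t) (by linarith) hα.le (by rw [F.pt_e]; linarith)
    (by rw [F.pt_f]; linarith) (by rw [F.pt_n]; linarith) hw hJ (by linarith)
  have g' : ∀ s ∈ Icc (-R) R, om (S.N (S.cv F (F.pt ξ t) s)) F.n ≤ m + α := fun s hs => by
    linarith [om_le (S.N (F.pt ξ t)) (S.N (S.cv F (F.pt ξ t) s)) F.n, (g s hs).2]
  have hsR : s ∈ Icc (-R) R := abs_le.1 (by linarith)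
  have d := S.ht_drift F (y := F.pt ξ t) (m := 2 * (m + α))
    (fun s hs => S.abs_sl_le F (g s hs).1 (g' s hs) (by linarith)) hsR
    (s' := ⟪F.pt ξ t, F.e⟫) (abs_le.1 (by rw [F.pt_e]; linarith))
  rw [S.ht_self, F.pt_n, F.pt_e] at d
  rw [← S.cv_pt]
  refine ⟨(g s hsR).1, g' s hsR, d.trans ?_⟩
  have := abs_sub s ξ.1
  have := om_nonneg (S.N (F.pt ξ t)) F.n
  calc 2 * (m + α) * |s - ξ.1| ≤ 2 * (4 * α + α) * (2 * L) := by gcongr; linarith
    _ = _ := by ring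

lemma J_le_row (R : ℝ) (ξ : ℝ × ℝ) (t : ℝ) : S.J F R (F.pt ξ t) ≤ S.row F R ξ.2 :=
  (ENNReal.le_tsum t).trans (S.sum_J F R ξ)

/-- the set where `N` is close to `±n` -/
def near (θ : ℝ) : Set E3 := {x | om (S.N x) F.n ≤ θ}

lemma meas_near (θ : ℝ) : MeasurableSet (S.near F θ) :=
  (isClosed_le ((continuous_om _).comp S.hN.continuous) continuous_const).measurableSet

/-- a good base point and the heights of the sheets above it -/
structure Base (L R α : ℝ) (ξ₀ : ℝ × ℝ) (T : Finset ℝ) : Prop where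
  hL : 1 ≤ L
  hR : 3 * L ≤ R
  hα : 0 < α
  hαL : 40 * α * L ≤ 1
  h1 : |ξ₀.1| ≤ 1
  h2 : |ξ₀.2| ≤ 1
  row : S.row F.swap R ξ₀.1 ≤ ENNReal.ofReal α
  mem : ∀ t, t ∈ T ↔ S.w (F.pt ξ₀ t) = 0 ∧ om (S.N (F.pt ξ₀ t)) F.n ≤ 3 * α ∧ |t| ≤ L + 1

variable {S F} {L R α : ℝ} {ξ₀ : ℝ × ℝ} {T : Finset ℝ} {Φ : E3 → ℝ≥0∞}

lemma bad_eq {y : E3} (h : ¬S.J F R y ≤ ENNReal.ofReal α) : S.bad F R α y = 1 :=
  indicator_of_mem (show y ∈ {y | _ < S.J F R y} from not_le.1 h) _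

lemma Base.up (B : S.Base F L R α ξ₀ T) (hΦ : Tst L Φ) (ξ : ℝ × ℝ) :
    fs F S.w ((S.near F α).indicator Φ) ξ ≤
      ∑ t ∈ T, (Φ (F.pt ξ t) + ENNReal.ofReal (40 * α * L))
        + S.row F R ξ.2 * ENNReal.ofReal α⁻¹ := by
  have hL := B.hL
  have hi := (S.tr_inj F.swap (ξ.2, ξ₀.1) ξ₀.2).comp (S.tr_inj F ξ ξ₀.1)
  rw [sum_eq_tsum_indicator]
  refine le_trans ?_ (add_le_add (ENNReal.tsum_comp_le_tsum_of_injective hi _)
    (S.sum_bad F R B.hα ξ))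
  rw [← ENNReal.tsum_add]
  refine ENNReal.tsum_le_tsum fun t => indicator_apply_le' (fun hw => indicator_apply_le'
    (fun ho => ?_) fun _ => zero_le) fun _ => zero_le
  by_cases h0 : Φ (F.pt ξ t) = 0
  · rw [h0]; exact zero_le
  by_cases hJ : S.J F R (F.pt ξ t) ≤ ENNReal.ofReal α
  swap
  · rw [bad_eq hJ]; exact (hΦ.le_one _).trans le_add_self
  obtain ⟨c1, c2, c3⟩ := hΦ.coord F h0
  obtain ⟨a1, a2, a3⟩ := S.step F (s := ξ₀.1) hL B.hR B.hα B.hαL c1 c2 (by linarith)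
    (by linarith [B.h1]) hw ho (by linarith [B.hα]) hJ
  set t₁ := S.tr F ξ ξ₀.1 t
  have e1 : F.swap.pt (ξ.2, ξ₀.1) t₁ = F.pt (ξ₀.1, ξ.2) t₁ := F.swap_pt _ _
  have a4 := abs_sub_abs_le_abs_sub t₁ t
  obtain ⟨b1, b2, b3⟩ := S.step F.swap (ξ := (ξ.2, ξ₀.1)) (t := t₁) (s := ξ₀.2) hL B.hR B.hα B.hαL
    c2 (by linarith [B.h1]) (by linarith [B.hαL]) (by linarith [B.h2]) (e1 ▸ a1) (e1 ▸ a2)
    (by linarith [B.hα]) ((S.J_le_row _ _ _ _).trans B.row)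
  set t₂ := S.tr F.swap (ξ.2, ξ₀.1) ξ₀.2 t₁
  have e2 : F.swap.pt (ξ₀.2, ξ₀.1) t₂ = F.pt ξ₀ t₂ := F.swap_pt _ _
  have b4 := abs_sub_abs_le_abs_sub t₂ t₁
  have hT : t₂ ∈ T := (B.mem _).2 ⟨e2 ▸ b1, e2 ▸ (b2.trans (by linarith)), by linarith [B.hαL]⟩
  refine le_add_right ?_
  rw [Function.comp, indicator_of_mem (Finset.mem_coe.2 hT)]
  refine (hΦ.lip _ (F.pt ξ t₂)).trans (add_le_add_right (ENNReal.ofReal_le_ofReal ?_) _)
  rw [F.pt_sub, abs_sub_comm]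
  linarith [abs_sub_le t₂ t₁ t]

lemma Base.down (B : S.Base F L R α ξ₀ T) (hΦ : Tst L Φ) {ξ : ℝ × ℝ} (c1 : |ξ.1| ≤ L)
    (c2 : |ξ.2| ≤ L) : ∑ t ∈ T, Φ (F.pt ξ t) ≤ fs F S.w ((S.near F (5 * α)).indicator Φ) ξ +
      ∑ _t ∈ T, ENNReal.ofReal (40 * α * L) + S.row F R ξ.2 * ENNReal.ofReal α⁻¹ := by
  have hL := B.hL
  have hi1 := S.tr_inj F.swap (ξ₀.2, ξ₀.1) ξ.2
  have hi := (S.tr_inj F (ξ₀.1, ξ.2) ξ.1).comp hi1
  rw [sum_eq_tsum_indicator, sum_eq_tsum_indicator]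
  refine le_trans ?_ (add_le_add (add_le_add_left (ENNReal.tsum_comp_le_tsum_of_injective hi _) _)
    ((ENNReal.tsum_comp_le_tsum_of_injective hi1 _).trans (S.sum_bad F R B.hα (ξ₀.1, ξ.2))))
  rw [← ENNReal.tsum_add, ← ENNReal.tsum_add]
  refine ENNReal.tsum_le_tsum fun t => indicator_apply_le' (fun ht => ?_) fun _ => zero_le
  obtain ⟨d1, d2, d3⟩ := (B.mem t).1 ht
  have e0 : F.swap.pt (ξ₀.2, ξ₀.1) t = F.pt ξ₀ t := F.swap_pt _ _
  obtain ⟨a1, a2, a3⟩ := S.step F.swap (ξ := (ξ₀.2, ξ₀.1)) (t := t) (s := ξ.2) hL B.hR B.hα B.hαL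
    (by linarith [B.h2]) (by linarith [B.h1]) (by linarith) c2 (e0 ▸ d1) (e0 ▸ d2)
    (by linarith [B.hα]) ((S.J_le_row _ _ _ _).trans B.row)
  set t₁ := S.tr F.swap (ξ₀.2, ξ₀.1) ξ.2 t
  have e1 : F.swap.pt (ξ.2, ξ₀.1) t₁ = F.pt (ξ₀.1, ξ.2) t₁ := F.swap_pt _ _
  by_cases hJ : S.J F R (F.pt (ξ₀.1, ξ.2) t₁) ≤ ENNReal.ofReal α
  swap
  · rw [bad_eq hJ]; exact (hΦ.le_one _).trans le_add_self
  have a4 := abs_sub_abs_le_abs_sub t₁ t
  obtain ⟨b1, b2, b3⟩ := S.step F (ξ := (ξ₀.1, ξ.2)) (t := t₁) (s := ξ.1) hL B.hR B.hα B.hαL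
    (by linarith [B.h1]) c2 (by linarith [B.hαL]) c1 (e1 ▸ a1) (e1 ▸ a2) (by linarith) hJ
  set t₂ := S.tr F (ξ₀.1, ξ.2) ξ.1 t₁
  refine le_add_right ?_
  rw [Function.comp, indicator_of_mem ht, indicator_of_mem (show F.pt ξ t₂ ∈ {x | S.w x = 0} from b1),
    indicator_of_mem (show F.pt ξ t₂ ∈ S.near F (5 * α) from b2.trans (by linarith))]
  refine (hΦ.lip _ (F.pt ξ t₂)).trans (add_le_add_right (ENNReal.ofReal_le_ofReal ?_) _)
  rw [F.pt_sub, abs_sub_comm]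
  linarith [abs_sub_le t₂ t₁ t]

variable (S F)

/-- the error of the matching -/
noncomputable def err (L R α : ℝ) (k : ℕ) : ℝ≥0∞ :=
  ENNReal.ofReal (2 * L) * (k * ENNReal.ofReal (40 * α * L) * ENNReal.ofReal (2 * L)
    + (∫⁻ σ, S.row F R σ) * ENNReal.ofReal α⁻¹)

/-- the density of the error -/
noncomputable def ed (L R α : ℝ) (k : ℕ) (ξ : ℝ × ℝ) : ℝ≥0∞ :=
  (Icc (-L) L).indicator 1 ξ.1 * (k * ENNReal.ofReal (40 * α * L) * (Icc (-L) L).indicator 1 ξ.2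
    + S.row F R ξ.2 * ENNReal.ofReal α⁻¹)

lemma int_ed (L R α : ℝ) (k : ℕ) : ∫⁻ ξ, S.ed F L R α k ξ = S.err F L R α k := by
  have hm : Measurable fun σ : ℝ => k * ENNReal.ofReal (40 * α * L) * (Icc (-L) L).indicator 1 σ :=
    (measurable_one.indicator measurableSet_Icc).const_mul _
  refine (int_strip (hm.add ((S.int_row F R).1.mul_const _))).trans ?_
  simp only [Pi.add_apply]
  rw [lintegral_add_left hm, lintegral_mul_const _ (S.int_row F R).1,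
    lintegral_const_mul _ (measurable_one.indicator measurableSet_Icc),
    lintegral_indicator_one measurableSet_Icc, Real.volume_Icc, err, show L - -L = 2 * L by ring]

lemma ed_eq (L R α : ℝ) (k : ℕ) {ξ : ℝ × ℝ} (c1 : |ξ.1| ≤ L) (c2 : |ξ.2| ≤ L) :
    S.ed F L R α k ξ = k * ENNReal.ofReal (40 * α * L) + S.row F R ξ.2 * ENNReal.ofReal α⁻¹ := by
  rw [ed, indicator_of_mem (mem_Icc.2 (abs_le.1 c1)), indicator_of_mem (mem_Icc.2 (abs_le.1 c2))]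
  simp

lemma int_near {θ : ℝ} (hθ : θ < 1) {g : E3 → ℝ≥0∞} (hg : Measurable g) :
    Measurable (fs F S.w ((S.near F θ).indicator g)) ∧
      ∫⁻ s, fs F S.w ((S.near F θ).indicator g) s =
        ∫⁻ x, (S.near F θ).indicator g x * ENNReal.ofReal |S.u F x| ∂ar S.w :=
  lintegral_fs F S.hw1 S.h1 (hg.indicator (S.meas_near F θ)) fun x hx h h0 => by
    have a1 := (om_abs (show om _ _ ≤ θ from (mem_of_indicator_ne_zero h : x ∈ S.near F θ)) F.hn).1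
    have a2 := S.abs_N_le F hx
    rw [F.nn] at a1
    rw [u, h0, abs_zero] at a2
    linarith

lemma int_near_le {θ : ℝ} (hθ : θ < 1) {g : E3 → ℝ≥0∞} (hg : Measurable g) :
    ∫⁻ s, fs F S.w ((S.near F θ).indicator g) s ≤ ∫⁻ x, g x ∂ar S.w := by
  rw [(S.int_near F hθ hg).2]
  refine setLIntegral_mono' S.mz fun x hx => ?_
  refine (mul_le_mul_right (ENNReal.ofReal_le_one.2 (S.abs_u_le F hx)) _).trans ?_
  rw [mul_one]
  exact indicator_le_self _ _ _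

variable {S F}

lemma meas_pt (hΦ : Tst L Φ) (t : ℝ) : Measurable fun ξ => Φ (F.pt ξ t) :=
  hΦ.meas.comp (F.continuous_pt.comp (continuous_id.prodMk continuous_const)).measurable

theorem Base.int_up (B : S.Base F L R α ξ₀ T) (hΦ : Tst L Φ) :
    ∫⁻ x, Φ x ∂ar S.w ≤ (∑ t ∈ T, ∫⁻ ξ, Φ (F.pt ξ t)) + (S.err F L R α T.card +
      (ENNReal.ofReal α * ar S.w (ball 0 L) + ar S.w (ball 0 L \ S.near F α))) := by
  have hα1 : α < 1 := by nlinarith [B.hL, B.hαL, B.hα]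
  obtain ⟨hm, he⟩ := S.int_near F hα1 hΦ.meas
  have h1 : ∫⁻ s, fs F S.w ((S.near F α).indicator Φ) s ≤
      (∑ t ∈ T, ∫⁻ ξ, Φ (F.pt ξ t)) + S.err F L R α T.card := by
    rw [← lintegral_finsetSum _ fun t _ => meas_pt hΦ t, ← int_ed,
      ← lintegral_add_left (Finset.measurable_sum _ fun t _ => meas_pt hΦ t)]
    refine lintegral_mono fun ξ => ?_
    by_cases c : |ξ.1| ≤ L ∧ |ξ.2| ≤ L
    · refine (B.up hΦ ξ).trans (le_of_eq ?_)
      rw [S.ed_eq F L R α _ c.1 c.2, Finset.sum_add_distrib, Finset.sum_const, nsmul_eq_mul,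
        add_assoc]
    · refine le_of_eq_of_le (ENNReal.tsum_eq_zero.2 fun t => ?_) zero_le
      rw [indicator_apply_eq_zero]
      intro _
      rw [indicator_apply_eq_zero]
      intro _
      by_contra h0
      exact c ⟨(hΦ.coord F h0).1, (hΦ.coord F h0).2.1⟩
  rw [← add_assoc]
  refine le_trans ?_ (add_le_add_left h1 _)
  have hd : MeasurableSet (ball (0 : E3) L \ S.near F α) := measurableSet_ball.diff (S.meas_near F α)
  rw [he, ← lintegral_indicator_one measurableSet_ball, ← lintegral_indicator_one hd,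
    ← lintegral_const_mul _ (measurable_one.indicator measurableSet_ball),
    ← lintegral_add_right _ (measurable_one.indicator hd), ← lintegral_add_right _
      (((measurable_one.indicator measurableSet_ball).const_mul _).fun_add
        (measurable_one.indicator hd))]
  refine setLIntegral_mono' S.mz fun x hx => ?_
  by_cases h0 : Φ x = 0
  · rw [h0]; exact zero_le
  have hb := hΦ.supp x h0
  by_cases hn : x ∈ S.near F α
  · rw [indicator_of_mem hn, indicator_of_mem hb, ← add_assoc, Pi.one_apply, mul_one]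
    refine le_add_right ?_
    have a1 := (om_abs (show om _ _ ≤ α from hn) F.hn).1
    have a2 := S.abs_N_le F hx
    rw [F.nn] at a1
    calc Φ x = Φ x * 1 := (mul_one _).symm
      _ ≤ Φ x * (ENNReal.ofReal |S.u F x| + ENNReal.ofReal α) := by
        rw [← ENNReal.ofReal_add (abs_nonneg _) B.hα.le]
        exact mul_le_mul_right (ENNReal.one_le_ofReal.2 (by linarith)) _
      _ ≤ _ := by
        rw [mul_add]
        exact add_le_add_right (mul_le_of_le_one_left' (hΦ.le_one x)) _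
  · rw [indicator_of_mem (mem_sdiff_of_mem hb hn)]
    exact (hΦ.le_one x).trans (le_add_left le_add_self)

theorem Base.int_down (B : S.Base F L R α ξ₀ T) (hΦ : Tst L Φ) :
    (∑ t ∈ T, ∫⁻ ξ, Φ (F.pt ξ t)) ≤ ∫⁻ x, Φ x ∂ar S.w + S.err F L R α T.card := by
  have hα1 : 5 * α < 1 := by nlinarith [B.hL, B.hαL, B.hα]
  refine le_trans ?_ (add_le_add_left (S.int_near_le F hα1 hΦ.meas) _)
  rw [← lintegral_finsetSum _ fun t _ => meas_pt hΦ t, ← int_ed,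
    ← lintegral_add_left (S.int_near F hα1 hΦ.meas).1]
  refine lintegral_mono fun ξ => ?_
  by_cases c : |ξ.1| ≤ L ∧ |ξ.2| ≤ L
  · refine (B.down hΦ c.1 c.2).trans (le_of_eq ?_)
    rw [S.ed_eq F L R α _ c.1 c.2, Finset.sum_const, nsmul_eq_mul, add_assoc]
  · refine le_of_eq_of_le (Finset.sum_eq_zero fun t _ => ?_) zero_le
    by_contra h0
    exact c ⟨(hΦ.coord F h0).1, (hΦ.coord F h0).2.1⟩

variable (S F)

theorem exists_base {M : ℝ} (hL : 1 ≤ L) (hR : 3 * L ≤ R) (hα : 0 < α) (hαL : 40 * α * L ≤ 1)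
    (hM : 0 ≤ M) (hμ : ar S.w (ball 0 (L + 4)) ≤ ENNReal.ofReal M)
    (hε : ∫⁻ σ, S.row F.swap R σ ≤ ENNReal.ofReal (α / (M + 1))) :
    ∃ ξ₀ T, S.Base F L R α ξ₀ T ∧ (T.card : ℝ) ≤ M + 1 := by
  have hα1 : 3 * α < 1 := by nlinarith
  have hg : Measurable ((ball (0 : E3) (L + 4)).indicator (1 : E3 → ℝ≥0∞)) :=
    measurable_one.indicator measurableSet_ball
  set G := fs F S.w ((S.near F (3 * α)).indicator ((ball (0 : E3) (L + 4)).indicator 1)) with hG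
  have hGm : Measurable G := (S.int_near F hα1 hg).1
  have hGi : ∫⁻ s, ∫⁻ σ, G (s, σ) ≤ ENNReal.ofReal M := by
    refine le_trans (lintegral_prod _ hGm.aemeasurable).ge ((S.int_near_le F hα1 hg).trans ?_)
    rwa [lintegral_indicator_one measurableSet_ball]
  have hr := (S.int_row F.swap R).1
  obtain ⟨s, hs, h⟩ := exists_le_of_vol (s := Icc (0 : ℝ) 1) (by simp)
    ((hr.mul_const (ENNReal.ofReal ((M + 1) / α))).add (hGm.lintegral_prod_right' (ν := volume)))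
  have h' : S.row F.swap R s * ENNReal.ofReal ((M + 1) / α) + ∫⁻ σ, G (s, σ)
      ≤ ENNReal.ofReal (M + 1) := by
    refine h.trans ?_
    simp only [Pi.add_apply]
    rw [lintegral_add_left (hr.mul_const _), lintegral_mul_const _ hr]
    refine (add_le_add (mul_le_mul_left hε _) hGi).trans (le_of_eq ?_)
    rw [← ENNReal.ofReal_mul (by positivity), ← ENNReal.ofReal_add (by positivity) hM]
    congr 1
    field_simp
    ring
  obtain ⟨σ, hσ, h2⟩ := exists_le_of_vol (s := Icc (0 : ℝ) 1) (by simp)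
    (hGm.comp (measurable_prodMk_left (x := s)))
  have h3 : G (s, σ) ≤ ENNReal.ofReal (M + 1) := h2.trans (le_add_self.trans h')
  have hs1 : |s| ≤ 1 := abs_le.2 ⟨by linarith [hs.1], hs.2⟩
  have hσ1 : |σ| ≤ 1 := abs_le.2 ⟨by linarith [hσ.1], hσ.2⟩
  set Y : Set ℝ := {t | S.w (F.pt (s, σ) t) = 0 ∧ om (S.N (F.pt (s, σ) t)) F.n ≤ 3 * α ∧
    |t| ≤ L + 1} with hY
  have hone : ∀ t ∈ Y, {x | S.w x = 0}.indicator ((S.near F (3 * α)).indicator
      ((ball (0 : E3) (L + 4)).indicator (1 : E3 → ℝ≥0∞))) (F.pt (s, σ) t) = 1 := fun t ht => by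
    have := F.norm_le (F.pt (s, σ) t)
    rw [F.pt_e, F.pt_f, F.pt_n] at this
    rw [indicator_of_mem (show _ ∈ {x | S.w x = 0} from ht.1),
      indicator_of_mem (show _ ∈ S.near F (3 * α) from ht.2.1),
      indicator_of_mem (mem_ball_zero_iff.2 (by linarith [ht.2.2])), Pi.one_apply]
  have hfin : Y.Finite := (ENNReal.finite_const_le_of_tsum_ne_top
    (ne_top_of_le_ne_top ENNReal.ofReal_ne_top h3) one_ne_zero).subset fun t ht => (hone t ht).ge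
  refine ⟨(s, σ), hfin.toFinset, ⟨hL, hR, hα, hαL, hs1, hσ1, ?_, fun t => hfin.mem_toFinset⟩, ?_⟩
  · have c0 : ENNReal.ofReal ((M + 1) / α) ≠ 0 := (ENNReal.ofReal_pos.2 (by positivity)).ne'
    refine (ENNReal.mul_le_mul_iff_left c0 ENNReal.ofReal_ne_top).1 ((le_self_add.trans h').trans
      (le_of_eq ?_))
    rw [← ENNReal.ofReal_mul hα.le]
    congr 1
    field_simp
  · have : (hfin.toFinset.card : ℝ≥0∞) ≤ ENNReal.ofReal (M + 1) := by
      refine le_trans ?_ ((ENNReal.sum_le_tsum hfin.toFinset).trans h3)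
      rw [Finset.sum_congr rfl fun t ht => hone t (hfin.mem_toFinset.1 ht)]
      simp
    rwa [← ENNReal.ofReal_natCast, ENNReal.ofReal_le_ofReal_iff (by positivity)] at this

end Dat

end Vale.Agent.P218UF
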